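import Vale.Agent.P022.H443.Tri

/-!
# P022K, block EN: trace functions which are not ramified outside six
-/

set_option linter.all false

open NumberField Polynomial

noncomputable section

namespace Vale.Agent.P022K.EN

open Vale.Agent.P022 Vale.Agent.P022.H346 Vale.Agent.P022.H132.Z Vale.Agent.P022.H443

section alg

variable {G A : Type*} [Group G] [CommRing A] {t : G → A} {d : G →* Aˣ}

theorem tf_map {B : Type*} [CommRing B] (T : TF t d) (f : A →+* B) :
    TF (fun g => f (t g)) ((Units.map (f : A →* B)).comp d) where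
  one := by rw [T.one, map_ofNat]
  comm g h := by simp only [T.comm g h]
  mul g h := by simpa using congrArg f (T.mul g h)

/-- the kernel of `t` modulo `I` -/
def kr (t : G → A) (I : Ideal A) : Subgroup G where
  carrier := {u | ∀ g, t (g * u) - t g ∈ I}
  one_mem' g := by simp
  mul_mem' {u v} hu hv g := by simpa [mul_assoc] using I.add_mem (hv (g * u)) (hu g)
  inv_mem' {u} hu g := by simpa using I.neg_mem (hu (g * u⁻¹))

theorem kr_normal (T : TF t d) (I : Ideal A) : (kr t I).Normal := ⟨fun u hu x g => by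
  have := hu (x⁻¹ * g * x)
  rwa [T.comm (x⁻¹ * g) x, mul_inv_cancel_left, show x⁻¹ * g * x * u = x⁻¹ * (g * x * u) by group,
    T.comm, show g * x * u * x⁻¹ = g * (x * u * x⁻¹) by group] at this⟩

theorem pow_two_pow {B : Type*} [CommRing B] (h2 : IsNilpotent (2 : B)) {u : B}
    (hu : IsNilpotent (u - 1)) : ∃ k, u ^ 2 ^ k = 1 := by
  have hJ : IsNilpotent (Ideal.span {2, u - 1} : Ideal B) := by
    refine (Ideal.FG.isNilpotent_iff_le_nilradical (Submodule.fg_span (Set.toFinite _))).2 ?_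
    rw [Ideal.span_le]
    rintro x (rfl | rfl)
    exacts [h2, hu]
  obtain ⟨n, hn⟩ := hJ
  have key : ∀ k, u ^ 2 ^ k - 1 ∈ (Ideal.span {2, u - 1} : Ideal B) ^ (k + 1) := fun k => by
    induction k with
    | zero => simpa using Ideal.subset_span (by simp)
    | succ k ih =>
      rw [show u ^ 2 ^ (k + 1) - 1 = (u ^ 2 ^ k - 1) * ((u ^ 2 ^ k - 1) + 2) by
        rw [pow_succ, pow_mul]; ring, pow_succ _ (k + 1)]
      exact Ideal.mul_mem_mul ih (Ideal.add_mem _ (Ideal.pow_le_self k.succ_ne_zero ih)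
        (Ideal.subset_span (by simp)))
  refine ⟨n, sub_eq_zero.1 ?_⟩
  have := key n
  rwa [pow_succ, hn, zero_mul, Ideal.zero_eq_bot, Ideal.mem_bot] at this

/-- residually unipotent elements have two-power order -/
theorem two_pow (T : TF t d) (h2 : IsNilpotent (2 : A)) {g : G} (ht : IsNilpotent (t g))
    (hd : IsNilpotent ((d g : A) - 1)) : ∃ k, ∀ h, t (h * g ^ 2 ^ k) = t h := by
  let f : A[X] := X ^ 2 - C (t g) * X + C (d g : A)
  let j : A →+* AdjoinRoot f := AdjoinRoot.of f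
  have e : (AdjoinRoot.root f - 1) ^ 2 = (j (t g) - 2) * AdjoinRoot.root f - j (d g - 1) := by
    have := AdjoinRoot.eval₂_root f
    simp only [f, eval₂_add, eval₂_sub, eval₂_mul, eval₂_pow, eval₂_X, eval₂_C] at this
    rw [map_sub, map_one]
    linear_combination this
  have n2 : IsNilpotent (2 : AdjoinRoot f) := by simpa only [map_ofNat] using h2.map j
  obtain ⟨k, hk⟩ := pow_two_pow n2 (u := AdjoinRoot.root f) (IsNilpotent.of_pow (m := 2) (by
    rw [e]
    exact (Commute.all _ _).isNilpotent_sub ((Commute.all _ _).isNilpotent_mul_right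
      ((Commute.all _ _).isNilpotent_sub (ht.map j) n2)) (hd.map j)))
  have dv : f ∣ X ^ 2 ^ k - 1 := AdjoinRoot.mk_eq_zero.1 (by
    rw [map_sub, map_pow, AdjoinRoot.mk_X, hk, map_one, sub_self])
  obtain ⟨q, hq⟩ := dv
  let R : Module.End A (G → A) :=
    { toFun := fun F h => F (h * g), map_add' := fun _ _ => rfl, map_smul' := fun _ _ => rfl }
  have Rn : ∀ (n : ℕ) h, (R ^ n) t h = t (h * g ^ n) := fun n => by
    induction n with
    | zero => simp
    | succ n ih => intro h; rw [pow_succ', Module.End.mul_apply, pow_succ', ← mul_assoc, ← ih]; rfl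
  have f0 : aeval R f t = 0 := funext fun h => by
    have := T.sq h g 1
    simp only [f, map_add, map_sub, map_mul, map_pow, aeval_X, aeval_C, LinearMap.add_apply,
      LinearMap.sub_apply, Module.End.mul_apply, Module.algebraMap_end_apply, Pi.add_apply,
      Pi.sub_apply, Pi.smul_apply, smul_eq_mul, Rn, Pi.zero_apply]
    simp only [mul_one] at this
    rw [sq, ← mul_assoc, this]
    change _ - t g * t (h * g) + _ = 0
    ring
  refine ⟨k, fun h => ?_⟩
  have := congrArg (fun p => aeval R p t h) hq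
  simp only [mul_comm f, map_mul, Module.End.mul_apply, f0, map_zero, map_sub, map_pow, aeval_X,
    map_one, LinearMap.sub_apply, Pi.sub_apply, Rn, Module.End.one_apply, Pi.zero_apply] at this
  exact sub_eq_zero.1 this

theorem sq_pow [IsDomain A] (T : TF t d) {g : G} (hd : d g = 1) (h : t g ^ 2 = 4) (n : ℕ) :
    t (g ^ n) ^ 2 = 4 := by
  obtain ⟨e, e1, e2⟩ : ∃ e : A, e * e = 1 ∧ t g = 2 * e := by
    rcases mul_eq_zero.1 (show (t g - 2) * (t g + 2) = 0 by linear_combination h) with k | k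
    · exact ⟨1, by ring, by linear_combination k⟩
    · exact ⟨-1, by ring, by linear_combination k⟩
  have key : ∀ n, t (g ^ n) = 2 * e ^ n ∧ t (g ^ (n + 1)) = 2 * e ^ (n + 1) := fun n => by
    induction n with
    | zero => simp [T.one, e2]
    | succ n ih =>
      refine ⟨ih.2, ?_⟩
      have := T.sq (g ^ n) g 1
      simp only [mul_one, ← pow_succ, hd, Units.val_one, ih.1, ih.2, e2] at this
      rw [this]
      linear_combination (2 * e ^ n) * e1
  rw [(key n).1, mul_pow, ← pow_mul, mul_comm n, pow_mul, sq e, e1]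
  norm_num

/-- the relations among the traces of three generators -/
theorem rel3 [IsDomain A] (T : TF t d) (h2 : (2 : A) ≠ 0) {c τ σ : G} (cc : c * c = 1)
    (dc : (d c : A) = -1) (dτ : (d τ : A) = 1) (dσ : (d σ : A) = 3)
    (tm : ∀ u v, t (u * σ * τ * v) = t (u * τ * τ * τ * σ * v)) (h : t τ ^ 2 ≠ 4) :
    t c = 0 ∧ t τ = 0 ∧ t σ = 0 ∧ t (τ * σ) = 0 ∧
      3 * t (c * τ) ^ 2 + t (c * σ) ^ 2 + t (c * τ * σ) ^ 2 + 12 = 0 := by
  have half : ∀ a : A, a = -a → a = 0 := fun a e =>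
    (mul_eq_zero.1 (show 2 * a = 0 by linear_combination e)).resolve_left h2
  have tc : t c = 0 := by
    have := T.sq 1 c 1
    simp only [one_mul, mul_one, cc, T.one, dc] at this
    exact mul_self_eq_zero.1 (by linear_combination -this)
  have tτ : t τ = 0 := by
    have a := tm 1 σ⁻¹
    have b := T.sq τ τ 1
    have b' := T.sq 1 τ 1
    rw [T.comm, ← mul_assoc, ← mul_assoc] at a
    simp only [one_mul, mul_one, inv_mul_cancel, mul_inv_cancel_right, dτ, T.one] at a b b'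
    refine (mul_eq_zero.1 (show t τ * (t τ ^ 2 - 4) = 0 from ?_)).resolve_right (sub_ne_zero.2 h)
    linear_combination -a - b - t τ * b'
  have ac : ∀ u v, t (u * σ * τ * v) = -t (u * τ * σ * v) := fun u v => by
    have := T.sq (u * τ) τ (σ * v)
    simp only [← mul_assoc, tτ, dτ] at this
    rw [tm, this]
    ring
  have tσ : t σ = 0 := half _ (by
    have := ac τ⁻¹ 1
    rwa [mul_one, T.comm, mul_one, ← mul_assoc, mul_inv_cancel, inv_mul_cancel, one_mul] at this)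
  have tψ : t (τ * σ) = 0 := half _ (by
    have := ac 1 1
    rwa [one_mul, one_mul, mul_one, mul_one, T.comm] at this)
  refine ⟨tc, tτ, tσ, tψ, ?_⟩
  have a1 := T.sq 1 (c * τ * σ) 1
  have a2 := T.swap (c * τ) c σ (τ * σ)
  have a3 := T.swap c c τ (σ * τ * σ)
  have a4 := T.sq c τ σ
  have a5 := T.sq 1 (τ * σ) 1
  have a6 := ac c σ
  have a7 := T.sq (c * τ) σ 1
  simp only [← mul_assoc, one_mul, mul_one, cc, tc, tτ, tσ, tψ, map_mul, Units.val_mul, dc, dτ, dσ,
    T.one] at a1 a2 a3 a4 a5 a6 a7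
  linear_combination -a1 + a2 - a3 + t (c * σ) * a4 + a5 - t (c * τ) * (a6 - a7)

theorem mem_two {x y z : A} (hz : z * z ∈ Subring.closure {x, y}) {a : A}
    (ha : a ∈ Subring.closure {x, y, z}) :
    ∃ p ∈ Subring.closure {x, y}, ∃ q ∈ Subring.closure {x, y}, a = p + q * z := by
  induction ha using Subring.closure_induction with
  | mem a ha =>
    rcases ha with rfl | rfl | rfl
    · exact ⟨a, Subring.subset_closure (by simp), 0, zero_mem _, by ring⟩
    · exact ⟨a, Subring.subset_closure (by simp), 0, zero_mem _, by ring⟩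
    · exact ⟨0, zero_mem _, 1, one_mem _, by ring⟩
  | zero => exact ⟨0, zero_mem _, 0, zero_mem _, by ring⟩
  | one => exact ⟨1, one_mem _, 0, zero_mem _, by ring⟩
  | add a b _ _ ha hb =>
    obtain ⟨p, hp, q, hq, rfl⟩ := ha
    obtain ⟨p', hp', q', hq', rfl⟩ := hb
    exact ⟨_, add_mem hp hp', _, add_mem hq hq', by ring⟩
  | neg a _ ha =>
    obtain ⟨p, hp, q, hq, rfl⟩ := ha
    exact ⟨_, neg_mem hp, _, neg_mem hq, by ring⟩
  | mul a b _ _ ha hb =>
    obtain ⟨p, hp, q, hq, rfl⟩ := ha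
    obtain ⟨p', hp', q', hq', rfl⟩ := hb
    exact ⟨_, add_mem (mul_mem hp hp') (mul_mem (mul_mem hq hq') hz), _,
      add_mem (mul_mem hp hq') (mul_mem hq hp'), by ring⟩

end alg

/-- the generators: a complex conjugation, a generator of the tame inertia group and a Frobenius
element at three -/
structure Gen (P : Ideal (𝓞 Qb)) (c τ σ : GQ) : Prop where
  pr : P.IsPrime
  mem : ((3 : ℕ) : 𝓞 Qb) ∈ P
  conj : IsConj c
  cc : c * c = 1
  tau : τ ∈ inP P
  frob : ∀ x : 𝓞 Qb, σ • x - x ^ 3 ∈ P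
  cyc : ∀ N : Subgroup GQ, Two N → ∀ g ∈ inP P, ∃ n : ℕ, g⁻¹ * τ ^ n ∈ N
  gen : ∀ U : Subgroup GQ, Good U → Subgroup.closure {c, τ, σ} ⊔ U = ⊤
  rel : ∀ U : Subgroup GQ, Good U → (σ * τ)⁻¹ * (τ ^ 3 * σ) ∈ U

theorem exists_gen : ∃ P c τ σ, Gen P c τ σ := by
  obtain ⟨P, s, c, τ, σ, a1, a2, -, a3, a4, a5, -, a6, -, a7, a8, a9⟩ := H443.tri
  exact ⟨P, c, τ, σ, a1, a2, a3, a4, a5, a6, a7, a8, a9⟩

variable {A J : Type*} [CommRing A]

/-- a continuous trace function, residually trivial, not ramified outside six, whose determinant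
has the values of the cyclotomic character at the places `∞` and `3` -/
structure Ps (I : J → Ideal A) (t : GQ → A) (d : GQ →* Aˣ) : Prop where
  tf : TF t d
  opn : ∀ i, ∃ U ∈ nhds (1 : GQ), ∀ u ∈ U, ∀ g, t (g * u) - t g ∈ I i
  two : ∀ i, ∃ n, (2 : A) ^ n ∈ I i
  nt : ∀ i g, ∃ n, t g ^ n ∈ I i
  nd : ∀ i g, ∃ n, ((d g : A) - 1) ^ n ∈ I i
  unr : ∀ l : ℕ, l.Prime → l ≠ 2 → l ≠ 3 → ∀ P : Ideal (𝓞 Qb), P.IsPrime → (l : 𝓞 Qb) ∈ P →
    ∀ s ∈ inP P, ∀ g, t (g * s) = t g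
  dc : ∀ c, IsConj c → (d c : A) = -1
  dI : ∀ P : Ideal (𝓞 Qb), P.IsPrime → ((3 : ℕ) : 𝓞 Qb) ∈ P → ∀ s ∈ inP P, (d s : A) = 1
  dF : ∀ P : Ideal (𝓞 Qb), P.IsPrime → ((3 : ℕ) : 𝓞 Qb) ∈ P → ∀ φ : GQ,
    (∀ x : 𝓞 Qb, φ • x - x ^ 3 ∈ P) → (d φ : A) = 3

variable {I : J → Ideal A} {t : GQ → A} {d : GQ →* Aˣ} {P : Ideal (𝓞 Qb)} {c τ σ : GQ}

theorem nil_of {I : Ideal A} {a : A} (h : ∃ n, a ^ n ∈ I) : IsNilpotent (Ideal.Quotient.mk I a) :=
  h.imp fun n hn => by rw [← map_pow, Ideal.Quotient.eq_zero_iff_mem]; exact hn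

theorem Ps.good (h : Ps I t d) (i : J) : Good (kr t (I i)) where
  nor := kr_normal h.tf _
  op := by
    obtain ⟨U, hU, k⟩ := h.opn i
    exact Subgroup.isOpen_of_mem_nhds _ (Filter.mem_of_superset hU k)
  two g := by
    obtain ⟨k, hk⟩ := two_pow (tf_map h.tf (Ideal.Quotient.mk (I i)))
      (by simpa only [map_ofNat] using nil_of (h.two i)) (nil_of (h.nt i g))
      (by simpa using nil_of (h.nd i g))
    exact ⟨k, fun x => Ideal.Quotient.eq.1 (hk x)⟩
  unr l hl h6 P hP m s hs g := by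
    rw [h.unr l hl (by rintro rfl; exact h6 (by norm_num)) (by rintro rfl; exact h6 (by norm_num))
      P hP m s hs g, sub_self]
    exact zero_mem _

/-- **seven generators** -/
theorem Ps.gen7 (h : Ps I t d) (H : Gen P c τ σ) (S : Subring A) (h1 : t c ∈ S) (h2 : t τ ∈ S)
    (h3 : t σ ∈ S) (h4 : t (c * τ) ∈ S) (h5 : t (c * σ) ∈ S) (h6 : t (τ * σ) ∈ S)
    (h7 : t (c * τ * σ) ∈ S) (g : GQ) (i : J) : ∃ p ∈ S, t g - p ∈ I i := by
  have nor := (h.good i).nor
  obtain ⟨w, hw, u, hu, rfl⟩ : ∃ w ∈ Subgroup.closure {c, τ, σ}, ∃ u ∈ kr t (I i), w * u = g :=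
    Subgroup.mem_sup_of_normal_right.1 (H.gen _ (h.good i) ▸ Subgroup.mem_top g)
  let q := Ideal.Quotient.mk (I i)
  have m : ∀ {a}, a ∈ S → q a ∈ S.map q := fun ha => ⟨_, ha, rfl⟩
  have dc := h.dc c H.conj
  have dτ := h.dI P H.pr H.mem τ H.tau
  have dσ := h.dF P H.pr H.mem σ H.frob
  have inv : ∀ (x : (A ⧸ I i)ˣ) (b : A ⧸ I i), x * b = 1 → b ∈ S.map q →
      ((x⁻¹ : (A ⧸ I i)ˣ) : A ⧸ I i) ∈ S.map q := fun x b e hb => by
    rwa [Units.inv_eq_of_mul_eq_one_right e]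
  obtain ⟨n, hn⟩ := h.two i
  obtain ⟨a, b, e⟩ : IsCoprime (3 : ℤ) (2 ^ n) := IsCoprime.pow_right ⟨1, -1, by norm_num⟩
  have e3 : q 3 * a = 1 := by
    have := congrArg (Int.castRingHom (A ⧸ I i)) e
    have z := Ideal.Quotient.eq_zero_iff_mem.2 hn
    simp only [map_add, map_mul, map_pow, map_ofNat, map_one, eq_intCast] at this z ⊢
    linear_combination this - b * z
  obtain ⟨p, hp, e⟩ := mem_three (tf_map h.tf q) (S.map q) c τ σ (m h1) (m h2) (m h3) (m h4) (m h5)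
    (m h6) (m h7) (m (dc ▸ neg_mem (one_mem _))) (m (dτ ▸ one_mem _))
    (m (dσ ▸ ofNat_mem _ 3))
    (inv _ (-1) (by change q (d c) * _ = 1; simp [dc]) (neg_mem (one_mem _)))
    (inv _ 1 (by change q (d τ) * _ = 1; simp [dτ]) (one_mem _))
    (inv _ a (by change q (d σ) * _ = 1; rw [dσ, e3]) (intCast_mem _ a)) w hw
  refine ⟨p, hp, ?_⟩
  have := (I i).add_mem (hu w) (Ideal.Quotient.eq.1 e.symm)
  rwa [sub_add_sub_cancel] at this

/-- the relations on a component where inertia at three is not unipotent up to sign -/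
theorem Ps.rel [IsDomain A] (h : Ps I t d) (sep : ∀ a, (∀ i, a ∈ I i) → a = 0) (h2 : (2 : A) ≠ 0)
    (H : Gen P c τ σ) (pt : ∃ s ∈ inP P, t s ^ 2 ≠ 4) :
    t c = 0 ∧ t τ = 0 ∧ t σ = 0 ∧ t (τ * σ) = 0 ∧
      3 * t (c * τ) ^ 2 + t (c * σ) ^ 2 + t (c * τ * σ) ^ 2 + 12 = 0 := by
  have dτ := h.dI P H.pr H.mem τ H.tau
  refine rel3 h.tf h2 H.cc (h.dc c H.conj) dτ (h.dF P H.pr H.mem σ H.frob)
    (fun u v => ?_) fun e => ?_
  · refine (sub_eq_zero.1 (sep _ fun i => ?_)).symm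
    have := H.rel _ (h.good i) (v * u * (σ * τ))
    rwa [show v * u * (σ * τ) * ((σ * τ)⁻¹ * (τ ^ 3 * σ)) = v * (u * τ * τ * τ * σ) by
        simp only [pow_succ, pow_zero, mul_assoc, one_mul, mul_inv_cancel_left],
      show v * u * (σ * τ) = v * (u * σ * τ) by group, h.tf.comm v, h.tf.comm v] at this
  · obtain ⟨s, hs, k⟩ := pt
    refine k (sub_eq_zero.1 (sep _ fun i => ?_))
    obtain ⟨n, hn⟩ := H.cyc _ (two_of_good (h.good i)) s hs
    have a := hn s
    rw [mul_inv_cancel_left] at a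
    rw [← sq_pow h.tf (Units.ext dτ) e n,
      show t s ^ 2 - t (τ ^ n) ^ 2 = -(t s + t (τ ^ n)) * (t (τ ^ n) - t s) by ring]
    exact Ideal.mul_mem_left _ _ a

/-- **HYP**: the hypersurface -/
theorem Ps.hyp [IsDomain A] (h : Ps I t d) (sep : ∀ a, (∀ i, a ∈ I i) → a = 0) (h2 : (2 : A) ≠ 0)
    (pt : ∀ P : Ideal (𝓞 Qb), P.IsPrime → ((3 : ℕ) : 𝓞 Qb) ∈ P → ∃ s ∈ inP P, t s ^ 2 ≠ 4) :
    ∃ a b e : GQ, 3 * t a ^ 2 + t b ^ 2 + t e ^ 2 + 12 = 0 ∧ ∀ g i,
      ∃ p ∈ Subring.closure {t a, t b}, ∃ q ∈ Subring.closure {t a, t b},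
        t g - (p + q * t e) ∈ I i := by
  obtain ⟨P, c, τ, σ, H⟩ := exists_gen
  obtain ⟨r1, r2, r3, r4, r5⟩ := h.rel sep h2 H (pt P H.pr H.mem)
  refine ⟨c * τ, c * σ, c * τ * σ, r5, fun g i => ?_⟩
  obtain ⟨p, hp, e⟩ := h.gen7 H (Subring.closure {t (c * τ), t (c * σ), t (c * τ * σ)})
    (r1 ▸ zero_mem _) (r2 ▸ zero_mem _) (r3 ▸ zero_mem _) (Subring.subset_closure (by simp))
    (Subring.subset_closure (by simp)) (r4 ▸ zero_mem _) (Subring.subset_closure (by simp)) g i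
  have mx : t (c * τ) ∈ Subring.closure {t (c * τ), t (c * σ)} := Subring.subset_closure (by simp)
  have my : t (c * σ) ∈ Subring.closure {t (c * τ), t (c * σ)} := Subring.subset_closure (by simp)
  obtain ⟨a, ha, b, hb, rfl⟩ := mem_two (by
    rw [show t (c * τ * σ) * t (c * τ * σ) = -(3 * t (c * τ) ^ 2 + t (c * σ) ^ 2 + 12) by
      linear_combination r5]
    exact neg_mem (add_mem (add_mem (mul_mem (ofNat_mem _ 3) (pow_mem mx 2)) (pow_mem my 2))
      (ofNat_mem _ 12))) hp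
  exact ⟨a, ha, b, hb, e⟩

end Vale.Agent.P022K.EN
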