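import Vale.Agent.P022K.EN.EndA
import Vale.Agent.P022S.G.Gal
import Vale.Agent.P022U.FinH12

/-!
# P022K, block EN: the end point
-/

set_option linter.all false

namespace Vale.Agent.P022K.EN

/-- **ENDB** -/
theorem endb : CH.ENDB := endb_of (P022U.H12.lv7 (Or.inl rfl)) P022S.Bex.gal2s

end Vale.Agent.P022K.EN
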