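import Vale.Agent.P022K.EN.St
import Vale.Agent.P022K.UC.Brg

/-!
# P022K, block EN, row BRG
-/

set_option autoImplicit false
set_option linter.all false

open PowerSeries CongruenceSubgroup

noncomputable section

namespace Vale.Agent.P022K.EN

open Vale.Agent.P022 Vale.Agent.P022K.UC Vale.Agent.P022K.UC.Hm
open Vale.Agent.P022.H567.Tw (cf)
open Vale.Agent.P022D.G (Wd sg PS)

theorem Fa.fy {C a d : ℕ} {g : Fin d → ℤ⟦X⟧} {o : Fin d → ℕ} {n : ℕ → Matrix (Fin d) (Fin d) ℤ}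
    (h : Fa C a g o n) {A : Type*} [CommRing A] {n' : ℕ → Matrix (Fin d) (Fin d) A}
    (e : ∀ l : ℕ, l.Prime → ¬ l ∣ 2 * 9 → (l : A) ^ (2 * a + 1) • n' l = (n l).map (↑)) :
    Fy 9 (2 * a + 1) g n' where
  mem := h.sm
  ind := li_tri o h.inj (fun i => by simpa using (h.lead i).1) fun i k hk => by
    simp [(h.lead i).2 k hk]
  act l h1 h2 j k := by
    rw [show 2 * (2 * a + 1) + 1 = 4 * a + 3 by ring,
      h.tl l h1 (by rintro rfl; omega) (by rintro rfl; omega), Finset.mul_sum]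
    simp only [map_sum, map_zsmul, smul_eq_mul, Int.cast_sum, Int.cast_mul, ← mul_assoc]
    exact Finset.sum_congr rfl fun i _ => congrArg (· * _) (congrFun (congrFun (e l h1 h2) i) j)

/-- **BRG** -/
theorem brg : BRG := by
  refine ⟨fun k => ?_, fun C a d g o n h => ?_⟩
  · obtain ⟨x, x1, x2, x3⟩ := ex_eig (R := ℤ) (M := 2 * 18) (by omega) 0 Nat.cast
    obtain ⟨τ, h, -⟩ := ex_word (N := 18) ⟨x1, x2, fun l => (x3 l.1 l.2.1 l.2.2).2⟩ k
    exact ⟨τ, h⟩
  let n' : ℕ → Matrix (Fin d) (Fin d) ℚ := fun l => ((l : ℚ) ^ (2 * a + 1))⁻¹ • (n l).map (↑)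
  have e : ∀ l : ℕ, l.Prime → (l : ℚ) ^ (2 * a + 1) • n' l = (n l).map (↑) := fun l hl =>
    smul_inv_smul₀ (pow_ne_zero _ (Nat.cast_ne_zero.2 hl.ne_zero)) _
  have H := h.fy (n' := n') fun l h1 _ => e l h1
  have inj : Function.Injective ((Int.castRingHom ℚ).mapMatrix (m := Fin d)) :=
    Matrix.map_injective Int.cast_injective
  have key : ∀ Q : Wd 9, sg 9 (4 * a + 3) Q = 0 → FreeAlgebra.lift ℤ (Sum.elim
      (fun l : PA 9 => n l.1) fun l : PA 9 => (l.1 : Matrix (Fin d) (Fin d) ℤ) ^ (4 * a + 3)) Q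
      = 0 := fun Q hQ => by
    rw [show 4 * a + 3 = 2 * (2 * a + 1) + 1 by ring] at hQ ⊢
    refine (map_eq_zero_iff _ inj).1 (Eq.trans ?_ (H.brg dvd_rfl fun f hf =>
      (sg_sb Q f hf).symm.trans (LinearMap.congr_fun hQ f)))
    clear hQ
    induction Q using FreeAlgebra.induction with
    | grade0 r => simp
    | grade1 l =>
      rcases l with l | l
      · simp only [sb, FreeAlgebra.lift_ι_apply, Sum.elim_inl, map_mul, map_pow, map_natCast]
        rw [← Nat.cast_pow, ← nsmul_eq_mul, ← Nat.cast_smul_eq_nsmul ℚ, Nat.cast_pow, e _ l.2.1]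
        rfl
      · simp only [sb, FreeAlgebra.lift_ι_apply, Sum.elim_inr, map_pow, map_natCast]
    | mul x y hx hy => simp only [map_mul, hx, hy]
    | add x y hx hy => simp only [map_add, hx, hy]
  refine ⟨fun l l' => ?_, key, fun μ hμ P => ?_⟩
  · have := key (FreeAlgebra.ι ℤ (.inl l) * FreeAlgebra.ι ℤ (.inl l') -
      FreeAlgebra.ι ℤ (.inl l') * FreeAlgebra.ι ℤ (.inl l))
      (LinearMap.ext fun f => by simp [sg, gHk, H783.Tl_Tl _ l l'])
    rw [map_sub, map_mul, map_mul, FreeAlgebra.lift_ι_apply, FreeAlgebra.lift_ι_apply] at this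
    exact sub_eq_zero.1 this
  classical
  let n₂ : ℕ → Matrix (Fin d) (Fin d) ℤ_[2] := fun l =>
    if h : l.Prime ∧ ¬ l ∣ 2 * 18 then μ (FreeAlgebra.ι ℤ ⟨l, h⟩) else 0
  have e₂ : ∀ l : PA 18, n₂ l.1 = μ (FreeAlgebra.ι ℤ l) := fun l => dif_pos l.2
  have H₂ := h.fy (n' := n₂) fun l h1 h2 => by
    have h3 : ¬ l ∣ 2 * 18 := fun h3 => (h1.dvd_mul.1 h3).elim (fun h4 => h2 (h4.mul_right 9)) h2
    rw [e₂ ⟨l, h1, h3⟩]
    exact hμ ⟨l, h1, h3⟩
  have hP : FreeAlgebra.lift ℤ (fun l : PA 18 => n₂ l.1) P = μ P := by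
    induction P using FreeAlgebra.induction with
    | grade0 r => simp
    | grade1 l => rw [FreeAlgebra.lift_ι_apply, e₂]
    | mul x y hx hy => simp only [map_mul, hx, hy]
    | add x y hx hy => simp only [map_add, hx, hy]
  rw [← hP]
  refine ⟨H₂.brg (by norm_num), fun k hk h1 => H₂.rd (by norm_num) fun f hf => ?_⟩
  rw [h1 f hf, nc, if_pos (show k.Coprime (2 * 18) from hk.pow_right 2), LinearMap.smul_apply,
    smul_eq_mul, cfL_apply, mul_inv_cancel_left₀ (pow_ne_zero _ (Nat.cast_ne_zero.2 (by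
      rintro rfl
      simp at hk)))]

end Vale.Agent.P022K.EN
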