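import Vale.Agent.P022K.EN.Alg

/-!
# P022K, block EN: the components, over rings without two-torsion
-/

set_option linter.all false

open NumberField

noncomputable section

namespace Vale.Agent.P022K.EN

open Vale.Agent.P022 Vale.Agent.P022.H346 Vale.Agent.P022.H132.Z Vale.Agent.P022.H443

section alg

variable {G A : Type*} [Group G] [CommRing A] {t : G → A} {d : G →* Aˣ} {c τ σ : G}

theorem tc_zero (T : TF t d) (h2 : ∀ a : A, 2 * a = 0 → a = 0) (cc : c * c = 1)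
    (dc : (d c : A) = -1) : t c = 0 := by
  have := T.inv c
  rw [inv_eq_of_mul_eq_one_right cc, dc] at this
  exact h2 _ (by linear_combination -this)

theorem cube (T : TF t d) (dτ : (d τ : A) = 1)
    (tm : ∀ u v, t (u * σ * τ * v) = t (u * τ * τ * τ * σ * v)) : t τ * (t τ ^ 2 - 4) = 0 := by
  have a := tm 1 σ⁻¹
  have b := T.sq τ τ 1
  have b' := T.sq 1 τ 1
  rw [T.comm, ← mul_assoc, ← mul_assoc] at a
  simp only [one_mul, mul_one, inv_mul_cancel, mul_inv_cancel_right, dτ, T.one] at a b b'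
  linear_combination -a - b - t τ * b'

/-- the component `t τ = 0` -/
theorem rel0 (T : TF t d) (h2 : ∀ a : A, 2 * a = 0 → a = 0) (cc : c * c = 1)
    (dc : (d c : A) = -1) (dτ : (d τ : A) = 1) (dσ : (d σ : A) = 3)
    (tm : ∀ u v, t (u * σ * τ * v) = t (u * τ * τ * τ * σ * v)) (tτ : t τ = 0) :
    t σ = 0 ∧ t (τ * σ) = 0 ∧
      3 * t (c * τ) ^ 2 + t (c * σ) ^ 2 + t (c * τ * σ) ^ 2 + 12 = 0 := by
  have half : ∀ a : A, a = -a → a = 0 := fun a e => h2 a (by linear_combination e)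
  have tc := tc_zero T h2 cc dc
  have ac : ∀ u v, t (u * σ * τ * v) = -t (u * τ * σ * v) := fun u v => by
    have := T.sq (u * τ) τ (σ * v)
    simp only [← mul_assoc, tτ, dτ] at this
    rw [tm, this]
    ring
  have tσ : t σ = 0 := half _ (by
    have := ac τ⁻¹ 1
    rwa [mul_one, T.comm, mul_one, ← mul_assoc, mul_inv_cancel, inv_mul_cancel, one_mul] at this)
  have tψ : t (τ * σ) = 0 := half _ (by
    have := ac 1 1
    rwa [one_mul, one_mul, mul_one, mul_one, T.comm] at this)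
  refine ⟨tσ, tψ, ?_⟩
  have a1 := T.sq 1 (c * τ * σ) 1
  have a2 := T.swap (c * τ) c σ (τ * σ)
  have a3 := T.swap c c τ (σ * τ * σ)
  have a4 := T.sq c τ σ
  have a5 := T.sq 1 (τ * σ) 1
  have a6 := ac c σ
  have a7 := T.sq (c * τ) σ 1
  simp only [← mul_assoc, one_mul, mul_one, cc, tc, tτ, tσ, tψ, map_mul, Units.val_mul, dc, dτ, dσ,
    T.one] at a1 a2 a3 a4 a5 a6 a7
  linear_combination -a1 + a2 - a3 + t (c * σ) * a4 + a5 - t (c * τ) * (a6 - a7)

/-- the components `t τ = ± 2`; `n = e τ - 1` has square zero, `4 n σ = t σ • n` and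
`(t σ ^ 2 - 16) n = 0` -/
theorem rel2 (T : TF t d) (h2 : ∀ a : A, 2 * a = 0 → a = 0) (dτ : (d τ : A) = 1)
    (dσ : (d σ : A) = 3) (tm : ∀ u v, t (u * σ * τ * v) = t (u * τ * τ * τ * σ * v)) {e : A}
    (ee : e * e = 1) (tτ : t τ = 2 * e) :
    t (τ * σ) = e * t σ ∧
      (∀ u v, 4 * (t (u * τ * σ * v) - e * t (u * σ * v)) =
        t σ * (t (u * τ * v) - e * t (u * v))) ∧
      ∀ u, (t σ ^ 2 - 16) * (t (u * τ) - e * t u) = 0 := by
  have k1 : ∀ u v, t (u * σ * τ * v) - e * t (u * σ * v) =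
      3 * (t (u * τ * σ * v) - e * t (u * σ * v)) := fun u v => by
    have a := T.sq (u * τ) τ (σ * v)
    have b := T.sq u τ (σ * v)
    simp only [← mul_assoc, tτ, dτ] at a b
    rw [tm, a, b]
    linear_combination (4 * t (u * τ * σ * v)) * ee
  have k2 : t (τ * σ) = e * t σ := by
    have := k1 1 1
    simp only [one_mul, mul_one] at this
    rw [T.comm σ] at this
    exact sub_eq_zero.1 (h2 _ (by linear_combination -this))
  have k3 : ∀ u v, 4 * (t (u * τ * σ * v) - e * t (u * σ * v)) =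
      t σ * (t (u * τ * v) - e * t (u * v)) := fun u v => by
    have a := T.swap u τ σ v
    rw [tτ, k2] at a
    linear_combination a - k1 u v
  refine ⟨k2, k3, fun u => ?_⟩
  have a := k3 u σ
  have b := k3 u 1
  have a1 := T.sq (u * τ) σ 1
  have a2 := T.sq u σ 1
  simp only [mul_one, dσ] at a b a1 a2
  rw [a1, a2] at a
  have u3 : IsUnit (3 : A) := dσ ▸ (d σ).isUnit
  refine u3.mul_right_eq_zero.1 ?_
  linear_combination 4 * a - 3 * t σ * b

end alg

variable {A J : Type*} [CommRing A] {I : J → Ideal A} {t : GQ → A} {d : GQ →* Aˣ}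
  {P : Ideal (𝓞 Qb)} {c τ σ : GQ}

theorem Ps.tm (h : Ps I t d) (sep : ∀ a, (∀ i, a ∈ I i) → a = 0) (H : Gen P c τ σ) (u v : GQ) :
    t (u * σ * τ * v) = t (u * τ * τ * τ * σ * v) := by
  refine (sub_eq_zero.1 (sep _ fun i => ?_)).symm
  have := H.rel _ (h.good i) (v * u * (σ * τ))
  rwa [show v * u * (σ * τ) * ((σ * τ)⁻¹ * (τ ^ 3 * σ)) = v * (u * τ * τ * τ * σ) by
      simp only [pow_succ, pow_zero, mul_assoc, one_mul, mul_inv_cancel_left],
    show v * u * (σ * τ) = v * (u * σ * τ) by group, h.tf.comm v, h.tf.comm v] at this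

theorem Ps.dτ (h : Ps I t d) (H : Gen P c τ σ) : (d τ : A) = 1 := h.dI P H.pr H.mem τ H.tau

theorem Ps.dσ (h : Ps I t d) (H : Gen P c τ σ) : (d σ : A) = 3 := h.dF P H.pr H.mem σ H.frob

theorem Ps.cube (h : Ps I t d) (sep : ∀ a, (∀ i, a ∈ I i) → a = 0) (H : Gen P c τ σ) :
    t τ * (t τ ^ 2 - 4) = 0 := EN.cube h.tf (h.dτ H) (h.tm sep H)

/-- **HYP0**: the component `t τ = 0` -/
theorem Ps.hyp0 (h : Ps I t d) (sep : ∀ a, (∀ i, a ∈ I i) → a = 0)
    (h2 : ∀ a : A, 2 * a = 0 → a = 0) (H : Gen P c τ σ) (h0 : t τ = 0) :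
    3 * t (c * τ) ^ 2 + t (c * σ) ^ 2 + t (c * τ * σ) ^ 2 + 12 = 0 ∧ ∀ g i,
      ∃ p ∈ Subring.closure {t (c * τ), t (c * σ)}, ∃ q ∈ Subring.closure {t (c * τ), t (c * σ)},
        t g - (p + q * t (c * τ * σ)) ∈ I i := by
  obtain ⟨r3, r4, r5⟩ := rel0 h.tf h2 H.cc (h.dc c H.conj) (h.dτ H) (h.dσ H) (h.tm sep H) h0
  have r1 := tc_zero h.tf h2 H.cc (h.dc c H.conj)
  refine ⟨r5, fun g i => ?_⟩
  obtain ⟨p, hp, e⟩ := h.gen7 H (Subring.closure {t (c * τ), t (c * σ), t (c * τ * σ)})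
    (r1 ▸ zero_mem _) (h0 ▸ zero_mem _) (r3 ▸ zero_mem _) (Subring.subset_closure (by simp))
    (Subring.subset_closure (by simp)) (r4 ▸ zero_mem _) (Subring.subset_closure (by simp)) g i
  have mx : t (c * τ) ∈ Subring.closure {t (c * τ), t (c * σ)} := Subring.subset_closure (by simp)
  have my : t (c * σ) ∈ Subring.closure {t (c * τ), t (c * σ)} := Subring.subset_closure (by simp)
  obtain ⟨a, ha, b, hb, rfl⟩ := mem_two (by
    rw [show t (c * τ * σ) * t (c * τ * σ) = -(3 * t (c * τ) ^ 2 + t (c * σ) ^ 2 + 12) by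
      linear_combination r5]
    exact neg_mem (add_mem (add_mem (mul_mem (ofNat_mem _ 3) (pow_mem mx 2)) (pow_mem my 2))
      (ofNat_mem _ 12))) hp
  exact ⟨a, ha, b, hb, e⟩

/-- **HYPU**: the components which are not ramified at three up to the twist `e = ± 1` -/
theorem Ps.hypU (h : Ps I t d) (h2 : ∀ a : A, 2 * a = 0 → a = 0) (H : Gen P c τ σ) (e : ℤ)
    (h0 : ∀ g, t (g * τ) = e * t g) (g : GQ) (i : J) :
    ∃ p ∈ Subring.closure {t σ, t (c * σ)}, t g - p ∈ I i := by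
  have r1 := tc_zero h.tf h2 H.cc (h.dc c H.conj)
  have mx : t σ ∈ Subring.closure {t σ, t (c * σ)} := Subring.subset_closure (by simp)
  have my : t (c * σ) ∈ Subring.closure {t σ, t (c * σ)} := Subring.subset_closure (by simp)
  refine h.gen7 H _ (r1 ▸ zero_mem _) ?_ mx ?_ my ?_ ?_ g i
  · rw [← one_mul τ, h0, h.tf.one]
    exact mul_mem (intCast_mem _ e) (ofNat_mem _ 2)
  · rw [h0, r1, mul_zero]
    exact zero_mem _
  · rw [h.tf.comm τ, h0]
    exact mul_mem (intCast_mem _ e) mx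
  · rw [h.tf.comm (c * τ), ← mul_assoc, h0, h.tf.comm σ]
    exact mul_mem (intCast_mem _ e) my

/-- **HYPS**: the Steinberg components `t τ = 2 e`, `t σ = 4 e'` -/
theorem Ps.hypS (h : Ps I t d) (sep : ∀ a, (∀ i, a ∈ I i) → a = 0)
    (h2 : ∀ a : A, 2 * a = 0 → a = 0) (H : Gen P c τ σ) {e : ℤ} (e' : ℤ) (ee : e * e = 1)
    (h0 : t τ = 2 * e) (h1 : t σ = 4 * e') :
    t (c * τ * σ) = e * t (c * σ) + e' * t (c * τ) ∧
      ∀ g i, ∃ p ∈ Subring.closure {t (c * τ), t (c * σ)}, t g - p ∈ I i := by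
  have r1 := tc_zero h.tf h2 H.cc (h.dc c H.conj)
  obtain ⟨r2, r3, -⟩ := rel2 h.tf h2 (h.dτ H) (h.dσ H) (h.tm sep H) (e := e)
    (by exact_mod_cast congrArg (Int.cast : ℤ → A) ee) h0
  have r4 : t (c * τ * σ) = e * t (c * σ) + e' * t (c * τ) := by
    have := r3 c 1
    simp only [mul_one, r1, h1] at this
    exact sub_eq_zero.1 (h2 _ (h2 _ (by linear_combination this)))
  have mx : t (c * τ) ∈ Subring.closure {t (c * τ), t (c * σ)} := Subring.subset_closure (by simp)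
  have my : t (c * σ) ∈ Subring.closure {t (c * τ), t (c * σ)} := Subring.subset_closure (by simp)
  refine ⟨r4, h.gen7 H _ (r1 ▸ zero_mem _) ?_ ?_ mx my ?_ ?_⟩
  · rw [h0]
    exact mul_mem (ofNat_mem _ 2) (intCast_mem _ e)
  · rw [h1]
    exact mul_mem (ofNat_mem _ 4) (intCast_mem _ e')
  · rw [r2, h1]
    exact mul_mem (intCast_mem _ e) (mul_mem (ofNat_mem _ 4) (intCast_mem _ e'))
  · rw [r4]
    exact add_mem (mul_mem (intCast_mem _ e) my) (mul_mem (intCast_mem _ e') mx)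

/-- **TRI**: a point lies on one of the seven components -/
theorem Ps.tri [IsDomain A] (h : Ps I t d) (sep : ∀ a, (∀ i, a ∈ I i) → a = 0) (h2 : (2 : A) ≠ 0)
    (H : Gen P c τ σ) : t τ = 0 ∨ ∃ e : ℤ, e * e = 1 ∧ t τ = 2 * e ∧
      ((∀ g, t (g * τ) = e * t g) ∨ ∃ e' : ℤ, e' * e' = 1 ∧ t σ = 4 * e') := by
  refine (mul_eq_zero.1 (h.cube sep H)).imp_right fun k => ?_
  obtain ⟨e, ee, he⟩ : ∃ e : ℤ, e * e = 1 ∧ t τ = 2 * e := by
    rcases mul_eq_zero.1 (show (t τ - 2) * (t τ + 2) = 0 by linear_combination k) with k | k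
    · exact ⟨1, by norm_num, by push_cast; linear_combination k⟩
    · exact ⟨-1, by norm_num, by push_cast; linear_combination k⟩
  refine ⟨e, ee, he, ?_⟩
  obtain ⟨-, -, r⟩ := rel2 h.tf (fun a k => (mul_eq_zero.1 k).resolve_left h2) (h.dτ H) (h.dσ H)
    (h.tm sep H) (e := e) (by exact_mod_cast congrArg (Int.cast : ℤ → A) ee) he
  by_cases z : t σ ^ 2 - 16 = 0
  · right
    rcases mul_eq_zero.1 (show (t σ - 4) * (t σ + 4) = 0 by linear_combination z) with k | k
    · exact ⟨1, by norm_num, by push_cast; linear_combination k⟩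
    · exact ⟨-1, by norm_num, by push_cast; linear_combination k⟩
  · exact Or.inl fun g => sub_eq_zero.1 ((mul_eq_zero.1 (r g)).resolve_left z)

/-- if the generator acts by a sign, every element of inertia does -/
theorem Ps.unr3 (h : Ps I t d) (sep : ∀ a, (∀ i, a ∈ I i) → a = 0) (H : Gen P c τ σ)
    (h0 : ∀ g, t (g * τ) = t g) {s : GQ} (hs : s ∈ inP P) (g : GQ) : t (g * s) = t g := by
  have k : ∀ (n : ℕ) g, t (g * τ ^ n) = t g := fun n => by
    induction n with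
    | zero => simp
    | succ n ih => intro g; rw [pow_succ, ← mul_assoc, h0, ih]
  refine sub_eq_zero.1 (sep _ fun i => ?_)
  obtain ⟨n, hn⟩ := H.cyc _ (two_of_good (h.good i)) s hs
  have a := (I i).neg_mem (hn (g * s))
  rwa [mul_assoc, mul_inv_cancel_left, k, neg_sub] at a

end Vale.Agent.P022K.EN
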