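import Vale.Agent.P022K.UC.Galf

/-!
# P022K, block EN: residual nilpotence and the trace of the tame generator
-/

set_option linter.all false

open NumberField

noncomputable section

namespace Vale.Agent.P022K.EN

open Vale.Agent.P022 Vale.Agent.P022.H346 Vale.Agent.P022.H443 Vale.Agent.P022.H853
open Vale.Agent.P022D.G Vale.Agent.P022K.UC.Gf

theorem fricke {G B : Type*} [Group G] [CommRing B] {t : G → B} {d : G →* Bˣ} (T : TF t d)
    (h2 : (2 : B) = 0) {a b c : G} (ha : t a = 0) (hb : t b = 0) (hc : t c = 0)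
    (h1 : t (a * b) = 0) (h3 : t (a * c) = 0) (h4 : t (b * c) = 0) : t (a * b * c) ^ 2 = 0 := by
  have e1 := T.sq 1 (a * b * c) 1
  have e2 := T.swap (a * b) a c (b * c)
  have e3 := T.swap a a b (c * b * c)
  have e4 := T.sq 1 a (b * c * b * c)
  have e5 := T.swap b b c c
  have e6 := T.sq 1 b (c * c)
  have e7 := T.sq 1 c 1
  simp only [← mul_assoc, one_mul, mul_one, ha, hb, hc, h1, h3, h4, T.one, h2, mul_zero, zero_mul,
    sub_zero, add_zero, zero_sub, neg_zero, sub_self] at e1 e2 e3 e4 e5 e6 e7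
  rw [sq, ← e1, e2, e3, e4, e5, e6, e7]
  simp

variable {N : ℕ} {B : Type} [CommRing B] {γ : Wd N →+* B} {t : GQ → B} {d : GQ →* Bˣ}

theorem odd_zero (F : FROB) (hN : N ≠ 0) (h : PS0 N γ t d) {M : ℕ} [NeZero M]
    (hM : ∀ l : PA N, ¬ l.1 ∣ M) (sq : ∀ u : (ZMod M)ˣ, u * u = 1)
    (h0 : ∀ l : PA N, (l.1 : ZMod M) ≠ 1 → γ (wT l) = 0) {g : GQ} (hg : cyc M g ≠ 1) :
    t g = 0 := by
  obtain ⟨U, a, b, -, e⟩ := h.opn
  obtain ⟨l, φ, k, -, h2, h3⟩ := SubA.frob F hN (U ⊓ (cyc M).ker) inferInstance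
    (b.inter (isOpen_cyc _)) g ∅
  have h4 : cyc M g = cyc M φ ^ k := by
    have := MonoidHom.mem_ker.1 h3.2
    rwa [map_mul, map_inv, inv_mul_eq_one, map_pow] at this
  have ht : t φ = 0 := (h.frT l φ h2).trans (h0 l fun z => hg (by
    rw [h4, show cyc M φ = 1 from Units.ext ((cyc_frob l.2.1 (hM l) h2).trans z), one_pow]))
  have key : ∀ j, t (φ ^ (2 * j + 1)) = 0 := fun j => by
    induction j with
    | zero => simpa using ht
    | succ j ih =>
      rw [show 2 * (j + 1) + 1 = 2 * j + 1 + 2 by ring, SubA.step h.tf, ht, ih]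
      simp
  rw [(SubA.val e h3.1).1]
  rcases Nat.even_or_odd' k with ⟨j, rfl | rfl⟩
  · exact (hg (by rw [h4, pow_mul, pow_two, sq, one_pow])).elim
  · exact key j

theorem nd9 (l : PA 9) : l.1 ≠ 2 ∧ l.1 ≠ 3 :=
  ⟨fun e => l.2.2 (by rw [e]; norm_num), fun e => l.2.2 (by rw [e]; norm_num)⟩

theorem nd12 (l : PA 9) : ¬ l.1 ∣ 12 := fun h => by
  have := l.2.1.dvd_mul.1 (show l.1 ∣ 2 ^ 2 * 3 from h)
  rcases this with e | e
  · exact (nd9 l).1 ((Nat.prime_dvd_prime_iff_eq l.2.1 Nat.prime_two).1 (l.2.1.dvd_of_dvd_pow e))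
  · exact (nd9 l).2 ((Nat.prime_dvd_prime_iff_eq l.2.1 Nat.prime_three).1 e)

theorem cls (l : PA 9) (h : (l.1 : ZMod 12) ≠ 1) : l.1 % 3 = 2 ∨ l.1 % 4 = 3 := by
  have a : ¬ 2 ∣ l.1 := fun e =>
    (nd9 l).1 ((Nat.prime_dvd_prime_iff_eq Nat.prime_two l.2.1).1 e).symm
  have b : ¬ 3 ∣ l.1 := fun e =>
    (nd9 l).2 ((Nat.prime_dvd_prime_iff_eq Nat.prime_three l.2.1).1 e).symm
  have c : l.1 % 12 ≠ 1 := fun e => h (by
    rw [← ZMod.natCast_mod, e, Nat.cast_one])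
  omega

theorem nil2 (F : FROB) {γ : Wd 9 →+* B} (h : PS0 9 γ t d) (h2 : (2 : B) = 0)
    (h0 : ∀ l : PA 9, l.1 % 3 = 2 ∨ l.1 % 4 = 3 → γ (wT l) = 0) (g : GQ) : t g ^ 2 = 0 := by
  have z : ∀ g, cyc 12 g ≠ 1 → t g = 0 := fun g =>
    odd_zero F (by norm_num) h nd12 (by decide) fun l hl => h0 l (cls l hl)
  by_cases e : cyc 12 g = 1
  swap
  · rw [z g e, sq, mul_zero]
  obtain ⟨a, ha⟩ := H20.exists_isFrob (show Nat.Prime 5 by norm_num)
  obtain ⟨b, hb⟩ := H20.exists_isFrob (show Nat.Prime 7 by norm_num)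
  have ca := cyc_frob (m := 12) (by norm_num) (by norm_num) ha
  have cb := cyc_frob (m := 12) (by norm_num) (by norm_num) hb
  have k1 : cyc 12 a ≠ 1 := fun z => absurd (z ▸ ca) (by decide)
  have k2 : cyc 12 b ≠ 1 := fun z => absurd (z ▸ cb) (by decide)
  have k3 : cyc 12 a * cyc 12 b ≠ 1 := fun z => by
    have := congrArg Units.val z
    rw [Units.val_mul, ca, cb] at this
    exact absurd this (by decide)
  have := fricke h.tf h2 (c := (a * b)⁻¹ * g) (z a k1) (z b k2)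
    (z _ (by rwa [map_mul, map_inv, e, mul_one, Ne, inv_eq_one, map_mul])) (z _ (by rwa [map_mul]))
    (z _ (by simpa [e] using k2)) (z _ (by simpa [e] using k1))
  rwa [mul_inv_cancel_left] at this

theorem exists_gen' : ∃ P c τ σ, Gen P c τ σ ∧ cyc 3 τ = -1 := by
  obtain ⟨P, s, c, τ, σ, a1, a2, a0, a3, a4, a5, b, a6, -, a7, a8, a9⟩ := H443.tri
  exact ⟨P, c, τ, σ, ⟨a1, a2, a3, a4, a5, a6, a7, a8, a9⟩, cyc_three_neg a0 b⟩

variable {A : Type} [CommRing A] [Algebra ℤ_[2] A]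

/-- **NIL, TS0** -/
theorem mid (hG : GAL2s) (F : FROB) (C : Cpl A) (tf : ∀ a : A, 2 * a = 0 → a = 0) {m : ℕ}
    {β : Wd 9 →+* A} (hk : ∀ Q, sg 9 (2 * m + 1) Q = 0 → β Q = 0)
    (hS : ∀ l, β (wS l) = (l.1 : A) ^ (2 * m + 1))
    (h4 : ∀ l : PA 9, l.1 % 3 = 2 → β (wT l) ∈ I2 A 2)
    (h2 : ∀ l : PA 9, l.1 % 4 = 3 → β (wT l) ∈ I2 A 1) :
    ∃ t, Out 9 m β t ∧ (∀ g, t g ^ 2 ∈ I2 A 1) ∧
      ∀ P c τ σ, Gen P c τ σ → cyc 3 τ = -1 → t τ = 0 := by
  have H := fun s => ps_of (β := β) hG (show Odd 9 by decide) (i := 2 * m + 1) (by omega) hk s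
  obtain ⟨t1, d1, p1⟩ := H 1
  obtain ⟨t2, d2, p2⟩ := H 2
  have n1 := nil2 F p1.toPS0 (by simpa using two_pow_quot (A := A) 1) fun l hl =>
    Ideal.Quotient.eq_zero_iff_mem.2 (hl.elim (fun e => I2_mono (by norm_num) (h4 l e)) (h2 l))
  obtain ⟨t, ht⟩ := galf hG F (N := 9) (by decide) (fun l a b =>
    (Nat.prime_dvd_prime_iff_eq a Nat.prime_three).1 (a.dvd_of_dvd_pow (show l ∣ 3 ^ 2 from b)))
    C hk hS fun l => by
      obtain ⟨φ, hφ⟩ := H20.exists_isFrob l.2.1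
      have := n1 φ
      rw [p1.frT l φ hφ, RingHom.comp_apply, ← map_pow, Ideal.Quotient.eq_zero_iff_mem] at this
      exact ⟨2, this⟩
  refine ⟨t, ht, fun g => ?_, fun P c τ σ G hτ => ?_⟩
  · have := n1 g
    rw [(ht.ag 1 t1 d1 p1.toPS0 g).1, ← map_pow, Ideal.Quotient.eq_zero_iff_mem, mul_pow,
      ← Units.val_pow_eq_pow_val, ← Units.val_pow_eq_pow_val] at this
    exact (Ideal.unit_mul_mem_iff_mem _ (Units.isUnit _)).1 this
  have z := odd_zero F (by norm_num) p2.toPS0 (M := 3)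
    (fun l e => nd12 l (e.trans (by norm_num))) (by decide) (fun l hl =>
      Ideal.Quotient.eq_zero_iff_mem.2 (h4 l (by
        have b : ¬ 3 ∣ l.1 := fun e =>
          (nd9 l).2 ((Nat.prime_dvd_prime_iff_eq Nat.prime_three l.2.1).1 e).symm
        have c : l.1 % 3 ≠ 1 := fun e => hl (by rw [← ZMod.natCast_mod, e, Nat.cast_one])
        omega))) (g := τ) (by rw [hτ]; decide)
  rw [(ht.ag 2 t2 d2 p2.toPS0 τ).1, Ideal.Quotient.eq_zero_iff_mem,
    ← Units.val_pow_eq_pow_val, Ideal.unit_mul_mem_iff_mem _ (Units.isUnit _),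
    Ideal.mem_span_singleton] at z
  obtain ⟨e, he⟩ := z
  have q := ht.ps.cube C.sep G
  have e1 : e = 4 * e ^ 2 * e := sub_eq_zero.1 (tf _ (tf _ (tf _ (tf _ (by
    rw [he] at q
    linear_combination -q)))))
  have e2 : ∀ i, e ∈ I2 A i := fun i => by
    induction i with
    | zero => exact Ideal.mem_span_singleton.2 (by simp)
    | succ i ih =>
      obtain ⟨b, hb⟩ := Ideal.mem_span_singleton.1 ih
      exact Ideal.mem_span_singleton.2 ⟨2 * e ^ 2 * b, by linear_combination e1 + 4 * e ^ 2 * hb⟩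
  rw [he, C.sep e e2, mul_zero]

/-- a saturated commutative algebra of matrices -/
theorem ex_alg {κ : Type} [Fintype κ] [DecidableEq κ] (S : Set (Matrix κ κ ℤ_[2]))
    (hS : ∀ x ∈ S, ∀ y ∈ S, x * y = y * x) :
    ∃ (A : Type) (_ : CommRing A) (_ : Algebra ℤ_[2] A) (ρ : A →ₐ[ℤ_[2]] Matrix κ κ ℤ_[2]),
      Module.Finite ℤ_[2] A ∧ Function.Injective ρ ∧ (∀ x ∈ S, ∃ a, ρ a = x) ∧
      ∀ (a : A) (h : ℕ), (∀ i j, 2 ^ h ∣ ρ a i j) → a ∈ I2 A h := by
  let Z := Subalgebra.centralizer ℤ_[2] S.centralizer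
  letI : CommRing Z := { (inferInstance : Ring Z) with
    mul_comm := fun a b => Subtype.ext (Set.centralizer_centralizer_comm_of_comm hS _ a.2 _ b.2) }
  refine ⟨Z, inferInstance, inferInstance, Z.val, Module.Finite.of_injective Z.val.toLinearMap
    Subtype.val_injective, Subtype.val_injective,
    fun x hx => ⟨⟨x, Set.subset_centralizer_centralizer hx⟩, rfl⟩, fun a h k => ?_⟩
  choose M hM using k
  have e : a.1 = (2 : ℤ_[2]) ^ h • Matrix.of M := Matrix.ext fun i j => hM i j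
  refine Ideal.mem_span_singleton.2 ⟨⟨Matrix.of M, fun y hy => ?_⟩, Subtype.ext ?_⟩
  · have := a.2 y hy
    rw [e, mul_smul_comm, smul_mul_assoc] at this
    exact smul_right_injective _ (pow_ne_zero h two_ne_zero) this
  · refine e.trans ((Algebra.smul_def _ _).trans ?_)
    change _ = (2 : Matrix κ κ ℤ_[2]) ^ h * Matrix.of M
    rw [map_pow, map_ofNat]

end Vale.Agent.P022K.EN
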