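import Vale.Agent.P022K.EN.Rtz
import Vale.Agent.P022K.UC.Galf

/-!
# P022K, block EN: the end point as a trace function over the integers
-/

set_option linter.all false

open NumberField Matrix

noncomputable section

namespace Vale.Agent.P022K.EN

open Vale.Agent.P022 Vale.Agent.P022.H346 Vale.Agent.P022K.CH Vale.Agent.P022K.UC.Gf
open Vale.Agent.P022.H443 (inP)
open Vale.Agent.P022E.GW (Ov Fb)

/-- the integers as an algebra -/
abbrev algO : Algebra ℤ_[2] (Op 2) :=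
  ((zc 2).codRestrict (Op 2) fun x => mem_op.2 (norm_zc x ▸ x.norm_le_one)).toAlgebra

theorem two_ne : (2 : Cp 2) ≠ 0 := two_ne_zero

theorem two_lt : ‖(2 : Cp 2)‖ < 1 := by simpa using norm_p_lt (p := 2)

theorem mem_I2 {x : Op 2} {n : ℕ} : x ∈ I2 (Op 2) n ↔ ‖(x : Cp 2)‖ ≤ ‖(2 : Cp 2)‖ ^ n := by
  have p : 0 < ‖(2 : Cp 2)‖ ^ n := pow_pos (norm_pos_iff.2 two_ne) n
  rw [Ideal.mem_span_singleton]
  constructor
  · rintro ⟨b, rfl⟩
    change ‖(2 : Cp 2) ^ n * b‖ ≤ _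
    rw [norm_mul, norm_pow]
    exact mul_le_of_le_one_right p.le (norm_Op b)
  · intro h
    refine ⟨⟨x / 2 ^ n, mem_op.2 ?_⟩, Subtype.ext ?_⟩
    · rwa [norm_div, norm_pow, div_le_one p]
    · change _ = (2 : Cp 2) ^ n * (x / 2 ^ n)
      rw [mul_div_cancel₀ _ (pow_ne_zero n two_ne)]

theorem sepO (a : Op 2) (h : ∀ i, a ∈ I2 (Op 2) i) : a = 0 := by
  refine Subtype.ext (norm_le_zero_iff.1 ?_)
  exact ge_of_tendsto' (tendsto_pow_atTop_nhds_zero_of_lt_one (norm_nonneg _) two_lt)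
    fun i => mem_I2.1 (h i)

theorem tf_tr {G R : Type} [Group G] [CommRing R] (r : G →* GL (Fin 2) R) :
    tr r 1 = 2 ∧ (∀ g h, tr r (g * h) = tr r (h * g)) ∧
      ∀ g h, tr r g * tr r h = tr r (g * h) + dt r h * tr r (g * h⁻¹) := by
  refine ⟨by simp [tr], fun g h => by
    rw [tr, tr, map_mul, map_mul, Units.val_mul, Units.val_mul, trace_mul_comm],
    fun g h => ?_⟩
  have e := congrArg (fun M => trace ((r (g * h⁻¹) : Matrix (Fin 2) (Fin 2) R) * M))
    (ch2 (r h : Matrix (Fin 2) (Fin 2) R))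
  simp only [mul_sub, mul_smul_comm, trace_sub, trace_smul, smul_eq_mul, mul_one, ← mul_assoc,
    ← Units.val_mul, ← map_mul, inv_mul_cancel_right] at e
  simp only [tr, dt]
  linear_combination -e

theorem tube {G L : Type*} [Group G] [TopologicalSpace G] [IsTopologicalGroup G] [CompactSpace G]
    [NormedField L] {f : G → L} (c : Continuous f) {ε : ℝ} (hε : 0 < ε) :
    ∃ U ∈ nhds (1 : G), ∀ u ∈ U, ∀ g, ‖f (g * u) - f g‖ ≤ ε := by
  have o : IsOpen {x : G × G | ‖f (x.1 * x.2) - f x.1‖ < ε} :=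
    isOpen_lt (((c.comp continuous_mul).sub (c.comp continuous_fst)).norm) continuous_const
  obtain ⟨V, U, -, h2, h3, h4, h5⟩ := generalized_tube_lemma isCompact_univ
    (isCompact_singleton (x := (1 : G))) o (by
      rintro ⟨g, u⟩ ⟨-, e⟩
      obtain rfl : u = 1 := e
      simpa using hε)
  exact ⟨U, h2.mem_nhds (h4 rfl), fun u hu g =>
    le_of_lt (h5 (Set.mk_mem_prod (h3 trivial) hu))⟩

theorem opn_tr {r : GQ →* GL (Fin 2) (Cp 2)} (hc : Continuous r) {ε : ℝ} (hε : 0 < ε) :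
    ∃ U ∈ nhds (1 : GQ), ∀ u ∈ U, ∀ g, ‖tr r (g * u) - tr r g‖ ≤ ε :=
  tube (f := tr r) (Units.continuous_val.comp hc).matrix_trace hε

/-- **the point** -/
theorem pt (h : LV3) {r : GQ →* GL (Fin 2) (Cp 2)} (hr : Rep r) (hu : Unr r {2, 3})
    (h3 : Ex r 3 4 2) : letI := algO
    ∃ t : GQ → Op 2, Ps (I2 (Op 2)) t (eA (Op 2)) ∧ (∀ g, (t g : Cp 2) = tr r g) ∧
      (∀ g, ‖(t g : Cp 2)‖ < 1) ∧ ∀ P c τ σ, Gen P c τ σ → t τ = 0 := by
  letI := algO
  have k := rtz h hr.cont hu fun P hP => (h3 P hP).1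
  let t : GQ → Op 2 := fun g => ⟨tr r g, mem_op.2 (k g).le⟩
  obtain ⟨a1, a2, a3⟩ := tf_tr r
  have p : Ps (I2 (Op 2)) t (eA (Op 2)) := ps_of (algebraMap ℤ_[2] (Op 2))
    ⟨Subtype.ext a1, fun g h => Subtype.ext (a2 g h), fun g h => Subtype.ext (by
      have := a3 g h
      rw [hr.det] at this
      exact this)⟩
    (fun i => (opn_tr hr.cont (pow_pos (norm_pos_iff.2 two_ne) i)).imp fun U hU =>
      ⟨hU.1, fun u a g => mem_I2.2 (hU.2 u a g)⟩)
    (fun i => ⟨i, Ideal.mem_span_singleton_self _⟩)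
    (fun i g => (exists_pow_lt_of_lt_one (pow_pos (norm_pos_iff.2 two_ne) i) (k g)).imp
      fun n hn => mem_I2.2 (by
        change ‖tr r g ^ n‖ ≤ _
        rw [norm_pow]
        exact hn.le))
    fun l P l2 l3 hP s hs g => Subtype.ext (by
      change tr r (g * s) = tr r g
      rw [tr, map_mul, hu l (by simp [l2, l3]) P hP s hs, mul_one, tr])
  refine ⟨t, p, fun g => rfl, k, fun P c τ σ G => ?_⟩
  refine (p.rel sepO (fun e => two_ne (congrArg Subtype.val e)) G ?_).2.1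
  obtain ⟨s, hs, e⟩ := ex_tr hr h3 ⟨Nat.prime_three, G.pr, G.mem⟩
  refine ⟨s, hs, fun z => ?_⟩
  have := congrArg Subtype.val z
  change tr r s ^ 2 = 4 at this
  rw [e] at this
  norm_num at this

end Vale.Agent.P022K.EN
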