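import Vale.Agent.P022K.EN.St
import Vale.Agent.P022K.EN.Mid
import Vale.Agent.P022K.EN.Pt
import Vale.Agent.P022K.UC.Core

/-!
# P022K, block EN: the end point is a limit of systems of classical forms
-/

set_option linter.all false

open PowerSeries

noncomputable section

namespace Vale.Agent.P022K.EN

open Vale.Agent.P022 Vale.Agent.P022.H853 Vale.Agent.P022K.UC.Hm Vale.Agent.P022K.UC.Gf
open Vale.Agent.P022K.CH (Cp Op Rep Unr Ex Sys norm_Op)
open Vale.Agent.P022.H567.Tw (cf)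
open Vale.Agent.P022D.G (Wd sg wT wS FROB)

theorem lift_map {A B ι : Type*} [Ring A] [Ring B] (μ : A →+* B) (x : ι → A)
    (P : FreeAlgebra ℤ ι) :
    μ (FreeAlgebra.lift ℤ x P) = FreeAlgebra.lift ℤ (fun i => μ (x i)) P := by
  induction P using FreeAlgebra.induction with
  | grade0 r => simp
  | grade1 i => simp
  | mul a b ha hb => simp [ha, hb]
  | add a b ha hb => simp [ha, hb]

/-- one weight -/
theorem wt (hG : GAL2s) (F : FROB) (hB : BRG) {C a d : ℕ} {g : Fin d → ℤ⟦X⟧} {o : Fin d → ℕ}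
    {n : ℕ → Matrix (Fin d) (Fin d) ℤ} (h : Fa C a g o n) {fr : PA 18 → GQ}
    (hf : ∀ l, IsFrob l.1 (fr l)) :
    ∃ (A : Type) (_ : CommRing A) (_ : Algebra ℤ_[2] A) (t : GQ → A)
      (φ : A →ₗ[ℤ_[2]] (Fin d → ℤ_[2])), Ps (I2 A) t (eA A) ∧
      (∀ x : A, (∀ i, x ∈ I2 A i) → x = 0) ∧ (∀ x : A, 2 * x = 0 → x = 0) ∧
      (∀ g, t g ^ 2 ∈ I2 A 1) ∧ (∀ P c τ σ, Gen P c τ σ → cyc 3 τ = -1 → t τ = 0) ∧
      ∀ P : FreeAlgebra ℤ (PA 18), ((∀ f, Tv f → wd 18 (2 * a + 1) P f = 0) →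
        FreeAlgebra.lift ℤ (fun l => t (fr l)) P = 0) ∧ ∀ k : ℕ, k.Coprime 6 →
        (∀ f, Tv f → cf (wd 18 (2 * a + 1) P f) 1 = nc 18 (2 * a + 1) k f) → ∀ j,
        (k : ℤ_[2]) ^ (2 * a + 1) * φ (FreeAlgebra.lift ℤ (fun l => t (fr l)) P) j =
          (coeff k (g j) : ℤ) := by
  obtain ⟨b1, b2, b3⟩ := hB.2 C a d g o n h
  let c : Matrix (Fin d) (Fin d) ℤ →+* Matrix (Fin d) (Fin d) ℤ_[2] :=
    (Int.castRingHom ℤ_[2]).mapMatrix
  obtain ⟨A, _, _, ρ, r1, r2, r3, r4⟩ := ex_alg (Set.range fun l : PA 9 => c (n l.1)) (by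
    rintro _ ⟨l, rfl⟩ _ ⟨l', rfl⟩
    exact ((b1 l l').map c).eq)
  choose T hT using fun l : PA 9 => r3 _ ⟨l, rfl⟩
  let β : Wd 9 →+* A := (FreeAlgebra.lift ℤ (Sum.elim T fun l : PA 9 => (l.1 : A) ^ (4 * a + 3)) :)
  have e : 2 * (2 * a + 1) + 1 = 4 * a + 3 := by ring
  have bT : ∀ l, β (wT l) = T l := fun l => FreeAlgebra.lift_ι_apply _ _
  have dv : ∀ (l : PA 9) (s : ℕ), (∀ i j, 2 ^ s ∣ n l.1 i j) → β (wT l) ∈ I2 A s :=
    fun l s k => r4 _ s fun i j => by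
      rw [bT, hT]
      simpa [c] using map_dvd (Int.castRingHom ℤ_[2]) (k i j)
  have tf : ∀ x : A, 2 * x = 0 → x = 0 := fun x k => r2 (by
    have := congrArg ρ k
    rw [two_mul, ← two_smul ℤ_[2], map_smul, map_zero] at this
    rw [map_zero]
    exact (smul_eq_zero.1 this).resolve_left two_ne_zero)
  obtain ⟨t, t1, t2, t3⟩ := mid hG F (cpl_fin A) tf (m := 2 * a + 1) (β := β) (fun Q k => r2 (by
      rw [e] at k
      have k1 := (lift_map c _ Q).symm.trans (congrArg c (b2 Q k))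
      rw [map_zero] at k1
      rw [map_zero, ← k1]
      refine (lift_map ρ.toRingHom _ Q).trans ?_
      congr 2
      funext s
      rcases s with l | l
      · exact hT l
      · simp)) (fun l => by rw [e]; exact FreeAlgebra.lift_ι_apply _ _)
    (fun l k => dv l 2 (h.four l.1 l.2.1 (nd9 l).1 k)) fun l k =>
      dv l 1 (by simpa using h.two l.1 l.2.1 (nd9 l).2 k)
  let ψ : FreeAlgebra ℤ (PA 18) →+* A := (FreeAlgebra.lift ℤ fun l => t (fr l) :)
  have k := b3 (ρ.toRingHom.comp ψ) fun l => by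
    let l' : PA 9 := ⟨l.1, l.2.1, fun z => l.2.2 (z.trans (by norm_num))⟩
    have z := congrArg ρ (t1.fr l' _ (hf l))
    rw [bT, hT, ← map_natCast (algebraMap ℤ_[2] A), ← map_pow, ← Algebra.smul_def, map_smul] at z
    rw [RingHom.comp_apply, show ψ (FreeAlgebra.ι ℤ l) = t (fr l) from
      FreeAlgebra.lift_ι_apply _ _]
    exact z
  refine ⟨A, inferInstance, inferInstance, t,
    { toFun := fun x j => ∑ i, ρ x i j * (coeff 1 (g i) : ℤ)
      map_add' := fun x y => funext fun j => by simp [add_mul, Finset.sum_add_distrib]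
      map_smul' := fun x y => funext fun j => by simp [mul_assoc, Finset.mul_sum] },
    t1.ps, (cpl_fin A).sep, tf, t2, t3, fun P => ⟨fun z => r2 ?_, (k P).2⟩⟩
  rw [map_zero]
  exact (k P).1 z

/-- **UC(a)** -/
theorem ucn18 (hL : LV3) (hG : GAL2s) (F : FROB) (hB : BRG) (hM : MAT) (hH : HADI)
    {ι : Qb →+* Cp 2} {r : GQ →* GL (Fin 2) (Cp 2)} {a : ℕ → Qb} (hr : Rep r) (hu : Unr r {2, 3})
    (h3 : Ex r 3 4 2) (hs : Sys ι r {2, 3} a) : UCN 18 fun l => ι (a l) := by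
  letI := algO
  obtain ⟨t₀, p1, p2, p3, p4⟩ := pt hL hr hu h3
  obtain ⟨P, c, τ, σ, G, hτ⟩ := exists_gen'
  choose fr hf using fun l : PA 18 => H20.exists_isFrob l.2.1
  obtain ⟨C, hC⟩ := hM
  choose d g o n hF using hC
  obtain ⟨C', hH⟩ := hH C
  choose R i1 i2 t φ q1 q2 q3 q4 q5 q6 using fun a => wt hG F hB (hF a) hf
  choose w hw using hB.1
  refine UC.Core.ucn (C := 4 * C' + 2) (W₀ := 1)
    (ρ := max ‖(2 : Cp 2)‖ (max ‖(t₀ (c * τ) : Cp 2)‖ ‖(t₀ (c * σ) : Cp 2)‖)) (le_max_left _ _)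
    (max_lt two_lt (max_lt (p3 _) (p3 _))) fun W hW => ?_
  obtain ⟨A, a1, a2⟩ : ∃ A, 2 * A + 1 ≤ W ∧ W ≤ 2 * (A + 1) := ⟨(W - 1) / 2, by omega, by omega⟩
  obtain ⟨s, e, ν, E, e1, e2, e3, e4, e5, e6⟩ := hH A d g o n hF
  let Q := ∀ i : Fin (A + 1), R i
  let u : GQ → Q × Op 2 := fun g => (fun i => t i g, t₀ g)
  obtain ⟨y1, y2⟩ := (ps_prod (ps_pi fun i : Fin (A + 1) => q1 i) p1).hyp0
    (sep_prod (fun x k => funext fun i => q2 i _ fun j => mem_pi.1 (k j) i) sepO)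
    (fun x k => Prod.ext (funext fun i => q3 i _ (congrFun (congrArg Prod.fst k) i))
      ((mul_eq_zero.1 (congrArg Prod.snd k)).resolve_left fun z =>
        two_ne (congrArg Subtype.val z))) G
    (Prod.ext (funext fun i => q5 i P c τ σ G hτ) (p4 P c τ σ G))
  let ix : Fin s → Fin (A + 1) := fun j => ⟨(e j).1, Nat.lt_succ_of_le (e1 j)⟩
  let Φ : Q →ₗ[ℤ_[2]] (Fin s → ℤ_[2]) :=
    { toFun := fun x j => φ (e j).1 (x (ix j)) (e j).2
      map_add' := fun x y => funext fun j => congrFun (map_add (φ (e j).1) _ _) _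
      map_smul' := fun x y => funext fun j => congrFun (map_smul (φ (e j).1) _ _) _ }
  have ev : ∀ P (i : Fin (A + 1)), RingHom.fst Q (Op 2) (FreeAlgebra.lift ℤ (fun l => u (fr l)) P)
      i = FreeAlgebra.lift ℤ (fun l => t i (fr l)) P := fun P i =>
    lift_map ((Pi.evalRingHom (fun i : Fin (A + 1) => R i) i).comp (RingHom.fst Q (Op 2))) _ P
  have ht : ∀ g (h : ℕ) (v : Q) j, 2 ^ h ∣ Φ ((u g).1 ^ ((4 * C' + 2) * (h + W)) * v) j := by
    intro g h v j
    obtain ⟨b, hb⟩ := Ideal.mem_span_singleton.1 (Ideal.mul_mem_right (v (ix j)) _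
      (Ideal.pow_mem_of_pow_mem _ (pow_mem_I2 (q4 (e j).1 g) h)
        (show 2 * h ≤ (4 * C' + 2) * (h + W) by nlinarith)))
    refine ⟨φ (e j).1 b (e j).2, (congrArg (φ (e j).1 · (e j).2) hb).trans ?_⟩
    rw [show (2 : R (ix j)) ^ h * b = (2 : ℤ_[2]) ^ h • b by
      rw [Algebra.smul_def, map_pow, map_ofNat]]
    exact congrFun (map_smul (φ (e j).1) _ _) _
  refine ⟨Q × Op 2, Q, Fin s, inferInstance, inferInstance, inferInstance, inferInstance,
    inferInstance, RingHom.fst _ _, (Op 2).subtype.comp (RingHom.snd _ _), fun l => u (fr l),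
    u (c * τ), u (c * σ), u (c * τ * σ), Φ, y1, fun l => y2 (fr l), fun l => ?_,
    fun x => norm_Op x.2, (le_max_left _ _).trans (le_max_right _ _),
    (le_max_right _ _).trans (le_max_right _ _), fun P k => funext fun i => (ev P i).trans
      ((q6 i P).1 (k _ (by have := i.2; omega))), fun h v j => ⟨ht _ h v j, ht _ h v j⟩,
    ⟨fun k => w (ν k), fun k => ν k ^ (2 * A + 1), E.transpose, fun k j => ?_,
      by rwa [Matrix.det_transpose], ?_⟩, ?_⟩
  · obtain ⟨P', b1, b2, b3⟩ := hf l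
    refine (p2 _).trans (hs l.1 (fun z => l.2.2 ?_) P' _ ⟨l.2.1, b1, b2⟩ b3)
    simp only [Finset.mem_insert, Finset.mem_singleton] at z
    rcases z with z | z <;> rw [z] <;> norm_num
  · have := (q6 (e j).1 (w (ν k))).2 (ν k) (e2 k) (hw _ _) (e j).2
    rw [Matrix.transpose_apply, e3, show 2 * A + 1 = 2 * (A - (e j).1) + (2 * (e j).1 + 1) by
      have := e1 j; omega, Int.cast_mul, ← this, ← ev _ (ix j)]
    push_cast
    rw [pow_add, mul_assoc]
    rfl
  · rw [Matrix.det_transpose, Fintype.card_fin]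
    refine e6.trans ((pow_le_pow_left₀ (by positivity) (b := (W : ℤ) + 2) (by
      have : (A : ℤ) ≤ W := by exact_mod_cast (by omega : A ≤ W)
      linarith) _).trans (pow_le_pow_right₀ (by omega) ?_))
    rw [mul_right_comm]
    exact Nat.mul_le_mul_right _ (Nat.mul_le_mul (by omega) (by omega))
  · rw [Fintype.card_fin]
    nlinarith [Nat.pow_le_pow_left a2 2]

end Vale.Agent.P022K.EN
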