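import Vale.Agent.P022K.EN.St
import Vale.Agent.P022K.UC.Mat
import Vale.Agent.P022K.UC.Stab
import Vale.Agent.P022K.UC.Fam
import Vale.Agent.P022K.UC.Eta

/-!
# P022K, block EN, row MAT
-/

set_option linter.all false

open PowerSeries CongruenceSubgroup

noncomputable section

namespace Vale.Agent.P022K.EN

open Vale.Agent.P022K.UC Vale.Agent.P022K.UC.Hm Vale.Agent.P022K.UC.Mt Vale.Agent.P022K.UC.Hd

theorem stab_of {D : ℤ⟦X⟧} (h : Sb.Eta D) {l : ℕ} (hl : l.Prime) (l3 : l ≠ 3) :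
    Stab u3 D l := fun a j hj => by
  obtain ⟨k1, k2⟩ := mem_Sa.1 hj
  obtain ⟨t, t1, t2⟩ := Sb.stab h hl l3 (a := a) (by omega) k1
  rw [show g u3 D a j = Sb.gs D a j from rfl, t2, map_sum]
  refine sum_mem fun i hi => ?_
  by_cases e : 3 ∣ i
  · rw [t1 i fun e' => (Nat.prime_three.dvd_mul.1 (show 3 ∣ l * j by omega)).elim
      (fun d => l3 ((Nat.prime_dvd_prime_iff_eq Nat.prime_three hl).1 d).symm) k2]
    simp
  · rw [map_mul, map_C, ← smul_eq_C_mul]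
    exact Submodule.smul_mem _ _ (Submodule.subset_span
      ⟨i, mem_Sa.2 ⟨Nat.lt_succ_iff.1 (Finset.mem_range.1 hi), e⟩, rfl⟩)

theorem mat_of {D : ℤ⟦X⟧} (h : Sb.Eta D) (d4 : ∀ n, n % 4 ≠ 1 → 2 ∣ coeff n D) : MAT := by
  have E : Et u3 D := et (h.2.2 0 (by norm_num)) h.2.1 h.2.2 d4
  have sm : ∀ a i, i ≤ a → map (Int.castRingHom ℂ) (g u3 D a i) ∈ SM (Gamma0 9) (2 * a) :=
    fun a i hi => by
      obtain ⟨F, h1, h2, -⟩ := Sb.gs_form h hi
      exact ⟨F, by rwa [show 2 * ((2 * a : ℕ) : ℤ) = 4 * a by push_cast; ring], h2⟩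
  obtain ⟨A, hA⟩ := pb_of (sm 1 0 zero_le_one)
  obtain ⟨B, hB⟩ := pb_of (sm 1 1 le_rfl)
  simp only [g, Nat.sub_zero, Nat.sub_self, pow_zero, pow_one, mul_one, one_mul] at hA hB
  refine ⟨A + B + 4, fun a => ?_⟩
  choose! n hn using fun (l : ℕ) (hl : l.Prime ∧ l ≠ 2 ∧ l ≠ 3) =>
    E.mat (hl.1.odd_of_ne_two hl.2.1) (stab_of h hl.1 hl.2.2) (a + 1)
  let e := (Sa (a + 1)).equivFin.symm
  have m : ∀ i, (e i).1 ≤ a + 1 := fun i => (mem_Sa.1 (e i).2).1
  have o := g_ord E.u0 E.d0 E.d1 (a + 1)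
  have inj : Function.Injective fun i => (e i).1 := Subtype.val_injective.comp e.injective
  refine ⟨_, fun i => C (4 ^ (e i).1) * g u3 D (a + 1) (e i), fun i => e i,
    fun l => Matrix.of fun i j => n l (e i) (e j), fun i => ?_, inj, fun i => ⟨?_, fun k hk => ?_⟩,
    fun k k1 k2 => ⟨e.symm ⟨k, mem_Sa.2 ⟨k1, fun d => ?_⟩⟩, by simp⟩, ?_, fun i k => ?_,
    fun l h1 h2 h3 j => PowerSeries.ext fun k => ?_, fun l h1 h2 h3 i j => ?_,
    fun l h1 h2 h3 i j => ?_⟩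
  · rw [map_mul, map_C, ← smul_eq_C_mul]
    exact Submodule.smul_mem _ _ (sm _ _ (m i))
  · rw [coeff_C_mul, (o _).2, mul_one]
    positivity
  · rw [coeff_C_mul, (o _).1 k hk, mul_zero]
  · exact absurd (k2 ▸ Nat.dvd_gcd d (show 3 ∣ 6 by norm_num) : 3 ∣ 1) (by norm_num)
  · refine (Finset.card_le_card (t := Finset.Icc 1 (a + 1)) fun i hi => ?_).trans (by simp)
    have := mem_Sa.1 hi
    rw [Finset.mem_Icc]
    omega
  · obtain ⟨s, hs⟩ := Nat.exists_eq_add_of_le (m i)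
    have k1 := ((hA.mono (A.le_add_right B)).pow (a + 1 - e i)).mul
      ((hB.mono (B.le_add_left A)).pow (e i)) k
    have k2 : (4 : ℤ) ^ (e i).1 ≤ ((k : ℤ) + 2) ^ (2 * (e i).1) := by
      rw [pow_mul]
      exact pow_le_pow_left₀ (by norm_num) (by nlinarith [Int.natCast_nonneg k]) _
    rw [coeff_C_mul, abs_mul, abs_of_nonneg (by positivity)]
    refine (mul_le_mul k2 k1 (abs_nonneg _) (by positivity)).trans ?_
    rw [← pow_add]
    refine pow_le_pow_right₀ (by omega) ?_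
    rw [show a + 1 - e i = s by omega]
    generalize (e i).1 = r at hs
    rw [hs]
    nlinarith
  · have k1 := (hn l ⟨h1, h2, h3⟩ _ (e j).2).1 k
    rw [← Finset.sum_coe_sort, ← e.sum_comp] at k1
    rw [← smul_eq_C_mul, ← TL_apply, (TL l _).map_smul, TL_apply, map_sum]
    simp only [zsmul_eq_mul, ← map_intCast (C (R := ℤ)), coeff_C_mul, Int.cast_id, Matrix.of_apply]
    exact k1
  · have k := hn l ⟨h1, h2, by omega⟩ _ (e j).2
    by_cases q : i = j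
    · rw [q, Matrix.of_apply, k.2.2.1 h3]
      exact dvd_zero _
    · exact k.2.1 _ (inj.ne q)
  · have k := hn l ⟨h1, by omega, h2⟩ _ (e j).2
    by_cases q : i = j
    · exact q ▸ k.2.2.2 h3
    · exact (show (2 : ℤ) ∣ 4 by norm_num).trans (k.2.1 _ (inj.ne q))

/-- **MAT** -/
theorem mat : MAT := mat_of ⟨UC.Et.form_D, UC.Et.D1, UC.Et.D3⟩ UC.Et.D2

end Vale.Agent.P022K.EN
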