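import Vale.Agent.P022D.G.Frob
import Vale.Agent.P022K.EN.Glue
import Vale.Agent.P022K.EN.Brg
import Vale.Agent.P022K.EN.Mat
import Vale.Agent.P022K.UC.Hadi
import Vale.Agent.P022K.UC.Uc
import Vale.Agent.P022K.CH.StB

/-!
# P022K, block EN: the end point from the theorems of the library
-/

set_option linter.all false

namespace Vale.Agent.P022K.EN

theorem hadi : HADI := fun C => (UC.Hd.hadi' 9 C).imp fun _ h A d g o n H =>
  h A d g o (fun a => (H a).sm) (fun a => (H a).lead) (fun a => (H a).big) fun a => (H a).gr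

/-- **ENDB** -/
theorem endb_of (hL : LV3) (hG : UC.Gf.GAL2s) : CH.ENDB :=
  fun ι r a hr hu _ h3 hs ha _ => UC.Hm.uc 18 (by norm_num) (by simp) (fun l hl => by
    rw [show 18 = 2 * 3 ^ 2 from rfl, hl.dvd_mul, Nat.prime_dvd_prime_iff_eq hl Nat.prime_two,
      hl.prime.dvd_pow_iff_dvd two_ne_zero, Nat.prime_dvd_prime_iff_eq hl Nat.prime_three]
    simp) ι ha (ucn18 hL hG P022D.G.frob brg mat hadi hr hu h3 hs)

end Vale.Agent.P022K.EN
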