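import Vale.Agent.P022K.EN.St
import Vale.Agent.P022K.UC.Stab2
import Vale.Agent.P022K.UC.Eta

/-!
# P022K, block EN: the row ETA
-/

set_option autoImplicit false

namespace Vale.Agent.P022K.EN

open Vale.Agent.P022K.UC

theorem sbEta : Sb.Eta Et.D := ⟨Et.form_D, Et.D1, Et.D3⟩

/-- **ETA** -/
theorem eta : ETA := ⟨Et.D, Et.u, Sb.D_sm sbEta, Sb.u_sm, Et.D1, Et.D3, Et.D2, Et.u1, Et.u3, Et.gr,
  fun a l hl _ h3 => Sb.lt_stab sbEta a l hl h3⟩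

end Vale.Agent.P022K.EN
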