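import Vale.Agent.P022.H431.Sv.Odd
import Vale.Agent.P022.H783.Sv.Grp
import Vale.Agent.P022.H279.Sv.Quad
import Vale.Agent.P022.H315.Sv.Ind
import Vale.Agent.P022.H239.L3.Res
import Vale.Agent.P022K.CH.Red
import Vale.Agent.P022K.EN.Alg

/-!
# P022K, block EN: the residual traces of the end point vanish
-/

set_option linter.all false

open NumberField Matrix

noncomputable section

namespace Vale.Agent.P022K.EN

open Vale.Agent.P022 Vale.Agent.P022.H346 Vale.Agent.P022K.CH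
open Vale.Agent.P022.H443 (inP galQb)
open Vale.Agent.P022E.GW (Ov Fb)

theorem ch2 {R : Type*} [CommRing R] (A : Matrix (Fin 2) (Fin 2) R) :
    A * A = A.trace • A - A.det • (1 : Matrix (Fin 2) (Fin 2) R) := by
  ext i j
  fin_cases i <;> fin_cases j <;>
    simp [Matrix.mul_apply, Fin.sum_univ_two, trace_fin_two, det_fin_two] <;> ring

theorem inv_tr {k : Type} [Field k] [CharP k 2] {A : GL (Fin 2) k} (h : A * A = 1) :
    (A : Matrix (Fin 2) (Fin 2) k).trace = 0 ∧ (A : Matrix (Fin 2) (Fin 2) k).det = 1 := by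
  have two : (2 : k) = 0 := CharTwo.two_eq_zero
  have e := congrArg Units.val h
  have d := congrArg Matrix.det e
  have t := congrArg Matrix.trace e
  rw [Units.val_mul, det_mul, Units.val_one, det_one] at d
  rw [Units.val_mul, ch2, Units.val_one, trace_sub, trace_smul, trace_smul, trace_one] at t
  simp only [smul_eq_mul, Fintype.card_fin, Nat.cast_ofNat, two, mul_zero, sub_zero] at t
  refine ⟨mul_self_eq_zero.1 t, sub_eq_zero.1 (mul_self_eq_zero.1 ?_)⟩
  linear_combination d - ((A : Matrix (Fin 2) (Fin 2) k).det - 1) * two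

/-- a solvable representation which is not ramified outside six and unipotent on the inertia
groups at three is unipotent -/
theorem rt0 {k : Type} [Field k] [IsAlgClosed k] [CharP k 2] (ρ : GQ →* GL (Fin 2) k)
    (ho : IsOpen {g | ρ g = 1}) (hu : ∀ l : ℕ, l.Prime → l ≠ 2 → l ≠ 3 → St.UnrAt ρ l)
    (h3 : ∀ P : Ideal (𝓞 Qb), P.IsPrime → ((3 : ℕ) : 𝓞 Qb) ∈ P → ∀ s ∈ inP P, ρ s * ρ s = 1)
    (hs : Group.IsSolvable ρ.range) (g : GQ) : tr ρ g = 0 := by
  have two : (2 : k) = 0 := CharTwo.two_eq_zero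
  have hunit : ∀ a b : kˣ, (a : k) + b = 0 → a = b := fun a b h =>
    Units.ext (by linear_combination h - (b : k) * two)
  have hin : ∀ l : ℕ, l.Prime → l ≠ 2 → ∀ P : Ideal (𝓞 Qb), P.IsPrime → (l : 𝓞 Qb) ∈ P →
      ∀ s ∈ inP P, ρ s * ρ s = 1 := fun l hl l2 P hP m s hs => by
    by_cases e : l = 3
    · exact h3 P hP (e ▸ m) s hs
    · rw [hu l hl l2 e P hP m s hs, mul_one]
  rcases H783.Sv.grp k GQ ρ hs with ⟨χ₁, χ₂, h⟩ | ⟨M, χ₁, χ₂, hM, h1, h0, m₀, hm₀⟩
  · have key : ∀ g, ρ g * ρ g = 1 → χ₁ g = 1 ∧ χ₂ g = 1 := fun g e => by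
      obtain ⟨a, b⟩ := inv_tr e
      have c := hunit _ _ ((h g).1.symm.trans a)
      have : χ₁ g = 1 := H239.L3.unit_sq (Units.ext (by
        rw [Units.val_mul, Units.val_one, ← b, (h g).2, c]))
      exact ⟨this, c ▸ this⟩
    have o : ∀ g, ρ g = 1 → ρ g * ρ g = 1 := fun g e => by rw [e, mul_one]
    rw [tr, (h g).1, H239.L3.char_two χ₁ (Subgroup.isOpen_mono (H₁ := ρ.ker)
      (fun g e => (key g (o g e)).1) ho) (fun l a b P c d s e => (key s (hin l a b P c d s e)).1),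
      H239.L3.char_two χ₂ (Subgroup.isOpen_mono (H₁ := ρ.ker)
      (fun g e => (key g (o g e)).2) ho) (fun l a b P c d s e => (key s (hin l a b P c d s e)).2),
      Units.val_one, CharTwo.add_self_eq_zero]
  exfalso
  have hAB : (χ₁ m₀ : k) + χ₂ m₀ ≠ 0 := fun h => hm₀ (hunit _ _ h)
  have key : ∀ g : GQ, ρ g = 1 → ∃ hg : g ∈ M, χ₁ ⟨g, hg⟩ = χ₂ ⟨g, hg⟩ := fun g e => by
    have hg : g ∈ M := by
      by_contra hg
      refine hAB ?_
      rw [← h1, ← h0 (g * m₀) fun h => hg ((M.mul_mem_cancel_right m₀.2).1 h), map_mul, e, one_mul]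
    exact ⟨hg, hunit _ _ ((h1 ⟨g, hg⟩).symm.trans (inv_tr (by rw [e, mul_one])).1)⟩
  have hMo : IsOpen (M : Set GQ) := Subgroup.isOpen_mono (H₁ := ρ.ker) (fun g e => (key g e).1) ho
  obtain ⟨K, _, _, j, s, d, hK, hK2, hd, hs⟩ := H279.Sv.quad M hMo hM fun l hl h6 P hP m g hg =>
    (key g (hu l hl (by rintro rfl; exact h6 (by norm_num)) (by rintro rfl; exact h6 (by norm_num))
      P hP m g hg)).1
  subst hK
  have := H315.Sv.core Sv.odd j s d hK2 hd hs (χ₁ / χ₂) hMo _ (ho.mem_nhds (map_one ρ))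
    (fun g hg => by rw [MonoidHom.div_apply, div_eq_one]; exact (key g hg).2)
    (fun l hl l2 P hP m g hg => by
      rw [MonoidHom.div_apply, div_eq_one]
      exact hunit _ _ ((h1 g).symm.trans (inv_tr (hin l hl l2 P hP m g hg)).1)) m₀
  exact hm₀ (div_eq_one.1 this)

/-- the theorem of the library on representations which are tame at three -/
def LV3 : Prop := ∀ (k : Type) [Field k] [CharP k 2] (ρ : GQ →* GL (Fin 2) k),
  IsOpen {g | ρ g = 1} → (∀ l : ℕ, l.Prime → l ≠ 2 → l ≠ 3 → St.UnrAt ρ l) →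
  (∀ P : Ideal (𝓞 Qb), P.IsPrime → ((3 : ℕ) : 𝓞 Qb) ∈ P → ∀ s : GQ,
    (∀ x : 𝓞 Qb, s • x - x ∈ P) → ρ s * ρ s = 1) → Group.IsSolvable ρ.range

theorem sq_one_of {k : Type} [Field k] [CharP k 2] {A : GL (Fin 2) k} (h : A ^ 4 = 1) :
    A * A = 1 := by
  have two : (2 : k) = 0 := CharTwo.two_eq_zero
  obtain ⟨a, b⟩ := inv_tr (A := A * A) (by rw [← h]; simp only [pow_succ, pow_zero, one_mul, mul_assoc])
  rw [Units.val_mul, det_mul] at b
  rw [Units.val_mul, ch2, trace_sub, trace_smul, trace_smul, trace_one] at a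
  simp only [smul_eq_mul, Fintype.card_fin, Nat.cast_ofNat, two, mul_zero, sub_zero] at a
  have d : (A : Matrix (Fin 2) (Fin 2) k).det = 1 := sub_eq_zero.1 (mul_self_eq_zero.1 (by
    linear_combination b - ((A : Matrix (Fin 2) (Fin 2) k).det - 1) * two))
  refine Units.ext ?_
  rw [Units.val_mul, ch2, mul_self_eq_zero.1 a, d, zero_smul, one_smul, zero_sub, Units.val_one]
  ext i j
  exact CharTwo.neg_eq _

theorem unr6 {R : Type} [CommRing R] {r : GQ →* GL (Fin 2) R} (hu : Unr r {2, 3}) {l : ℕ}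
    (hl : l.Prime) (l2 : l ≠ 2) (l3 : l ≠ 3) {P : Id} (hP : P.IsPrime) (m : (l : 𝓞 Qb) ∈ P)
    {s : GQ} (hs : s ∈ inP P) : r s = 1 := hu l (by simp [l2, l3]) P ⟨hl, hP, m⟩ s hs

/-- **RTZ** -/
theorem rtz (h : LV3) {r : GQ →* GL (Fin 2) (Cp 2)} (hc : Continuous r) (hu : Unr r {2, 3})
    (h3 : ∀ P, Ov 3 P → ∀ s ∈ inP P, r s ^ 4 = 1) (g : GQ) : ‖tr r g‖ < 1 := by
  obtain ⟨E, hE, x, r₀, e, -, hr⟩ := redC 2 r hc
  have a : ∀ l : ℕ, l.Prime → l ≠ 2 → l ≠ 3 → St.UnrAt (rs r₀) l := fun l hl l2 l3 P hP m s hs => by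
    have := (pow_int e s 1).2 (by rw [pow_one, unr6 hu hl l2 l3 hP m hs])
    rw [pow_one] at this
    rw [MonoidHom.comp_apply, this, map_one]
  have b : ∀ P : Ideal (𝓞 Qb), P.IsPrime → ((3 : ℕ) : 𝓞 Qb) ∈ P → ∀ s ∈ inP P,
      rs r₀ s * rs r₀ s = 1 := fun P hP m s hs => sq_one_of (by
    rw [MonoidHom.comp_apply, ← map_pow, (pow_int e s 4).2 (h3 P ⟨Nat.prime_three, hP, m⟩ s hs),
      map_one])
  have := rt0 (rs r₀) hr.opn a b (h _ _ hr.opn a b) g
  rw [← hr.tr, ← red_zero, red_eq_iff (hr.int g) (by simp), sub_zero] at this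
  exact this

/-- the point: an element of inertia with trace zero -/
theorem ex_tr {r : GQ →* GL (Fin 2) (Cp 2)} (hr : Rep r) (h3 : Ex r 3 4 2) {P : Id} (hP : Ov 3 P) :
    ∃ s ∈ inP P, tr r s = 0 := by
  obtain ⟨a, s, hs, b⟩ := h3 P hP
  refine ⟨s, hs, ?_⟩
  by_contra t0
  have d : (r s : Matrix (Fin 2) (Fin 2) (Cp 2)).det = 1 :=
    (hr.det s).trans (eps_inert hP (by norm_num) hs)
  have e := congrArg Units.val (a s hs)
  have c := ch2 (r s : Matrix (Fin 2) (Fin 2) (Cp 2))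
  rw [Units.val_pow_eq_pow_val, Units.val_one] at e
  rw [d, one_smul] at c
  change _ = tr r s • _ - _ at c
  set A := (r s : Matrix (Fin 2) (Fin 2) (Cp 2)) with hA
  set t := tr r s with ht
  have e2 : (t ^ 2 - 2) • A = t • (1 : Matrix (Fin 2) (Fin 2) (Cp 2)) := by
    have : t • ((t ^ 2 - 2) • A - t • (1 : Matrix (Fin 2) (Fin 2) (Cp 2))) = 0 := by
      have e3 : A ^ 4 = (A * A) * (A * A) := by simp only [pow_succ, pow_zero, one_mul, mul_assoc]
      rw [e3, c] at e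
      simp only [sub_mul, mul_sub, smul_mul_assoc, mul_smul_comm, c, one_mul, mul_one] at e
      rw [← sub_eq_zero] at e
      rw [← e]
      module
    exact sub_eq_zero.1 ((smul_eq_zero.1 this).resolve_left t0)
  have n : t ^ 2 - 2 ≠ 0 := fun z => by
    rw [z, zero_smul] at e2
    exact t0 (by simpa using (congrFun (congrFun e2 0) 0).symm)
  have e4 := congrArg Matrix.trace e2
  rw [trace_smul, trace_smul, trace_one] at e4
  change (t ^ 2 - 2) * t = t * _ at e4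
  simp only [Fintype.card_fin, Nat.cast_ofNat] at e4
  have t4 : t ^ 2 = 4 := by
    have := mul_left_cancel₀ t0 (show t * t ^ 2 = t * 4 by linear_combination e4)
    exact this
  refine b (Units.ext ?_)
  have e5 : (2 : Cp 2) • A = t • (1 : Matrix (Fin 2) (Fin 2) (Cp 2)) := by
    rw [← e2, t4]; norm_num
  rw [Units.val_pow_eq_pow_val, Units.val_one, sq, c]
  refine smul_right_injective _ (two_ne_zero (α := Cp 2)) ?_
  change (2 : Cp 2) • (t • A - 1) = (2 : Cp 2) • (1 : Matrix (Fin 2) (Fin 2) (Cp 2))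
  rw [smul_sub, smul_comm, e5, smul_smul, ← sq, t4]
  module

variable {A J : Type*} [CommRing A] {I : J → Ideal A} {t : GQ → A}

/-- the determinant -/
def dj (j : ℤ_[2] →+* A) : GQ →* Aˣ := (Units.map j.toMonoidHom).comp (ez 2)

theorem dj_coe (j : ℤ_[2] →+* A) (g : GQ) : (dj j g : A) = j (ez 2 g) := rfl

/-- trace functions with the cyclotomic determinant -/
theorem ps_of (j : ℤ_[2] →+* A) (tf : TF t (dj j))
    (opn : ∀ i, ∃ U ∈ nhds (1 : GQ), ∀ u ∈ U, ∀ g, t (g * u) - t g ∈ I i)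
    (two : ∀ i, ∃ n, (2 : A) ^ n ∈ I i) (nt : ∀ i g, ∃ n, t g ^ n ∈ I i)
    (unr : ∀ l P, l ≠ 2 → l ≠ 3 → Ov l P → ∀ s ∈ inP P, ∀ g, t (g * s) = t g) :
    Ps I t (dj j) where
  tf := tf
  opn := opn
  two := two
  nt := nt
  nd i g := by
    obtain ⟨n, hn⟩ := two i
    obtain ⟨b, hb⟩ : (2 : ℤ_[2]) ∣ (ez 2 g : ℤ_[2]) - 1 := by
      have := (mem_Gz_p (p := 2) (g := g)).1 fun x hx => by
        rcases sq_eq_sq_iff_eq_or_eq_neg.1 (hx.trans (one_pow 2).symm) with rfl | rfl <;> simp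
      rw [eps_eq, ← map_one (zc 2), ← map_sub, norm_zc, PadicInt.norm_lt_one_iff_dvd] at this
      exact this
    refine ⟨n, ?_⟩
    rw [dj_coe, ← map_one j, ← map_sub, hb, map_mul, map_ofNat, mul_pow]
    exact Ideal.mul_mem_right _ _ hn
  unr l hl l2 l3 P hP m := unr l P l2 l3 ⟨hl, hP, m⟩
  dc c hc := by
    rw [dj_coe, show (ez 2 c : ℤ_[2]) = -1 from zc_inj (by
      rw [← eps_eq, eps_conj hc, map_neg, map_one]), map_neg, map_one]
  dI P hP m s hs := by
    rw [dj_coe, show (ez 2 s : ℤ_[2]) = 1 from zc_inj (by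
      rw [← eps_eq, eps_inert ⟨Nat.prime_three, hP, m⟩ (by norm_num) hs, map_one]), map_one]
  dF P hP m φ hφ := by
    rw [dj_coe, show (ez 2 φ : ℤ_[2]) = 3 from zc_inj (by
      rw [← eps_eq, eps_frob ⟨Nat.prime_three, hP, m⟩ (by norm_num) hφ, map_ofNat,
        Nat.cast_ofNat]), map_ofNat]

/-- **HYP** through the point `r` -/
theorem hyp_of [IsDomain A] {d : GQ →* Aˣ} (h : Ps I t d) (sep : ∀ a, (∀ i, a ∈ I i) → a = 0)
    {r : GQ →* GL (Fin 2) (Cp 2)} (hr : Rep r) (h3 : Ex r 3 4 2) (lam : A →+* Cp 2)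
    (hl : ∀ g, lam (t g) = tr r g) :
    ∃ a b e : GQ, 3 * t a ^ 2 + t b ^ 2 + t e ^ 2 + 12 = 0 ∧ ∀ g i,
      ∃ p ∈ Subring.closure {t a, t b}, ∃ q ∈ Subring.closure {t a, t b},
        t g - (p + q * t e) ∈ I i := by
  refine h.hyp sep (fun e => ?_) fun P hP m => ?_
  · have := congrArg lam e
    rw [map_ofNat, map_zero] at this
    exact two_ne_zero this
  · obtain ⟨s, hs, e⟩ := ex_tr hr h3 ⟨Nat.prime_three, hP, m⟩
    refine ⟨s, hs, fun k => ?_⟩
    have := congrArg lam k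
    rw [map_pow, hl, e, map_ofNat] at this
    norm_num at this

end Vale.Agent.P022K.EN
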