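import Vale.Agent.P022D.G.Defs
import Vale.Agent.P022K.UC.UcB
import Vale.Agent.P022K.UC.Hat2

/-!
# P022K, block EN: the rows of the volume argument
-/

set_option linter.all false

open PowerSeries CongruenceSubgroup

noncomputable section

namespace Vale.Agent.P022K.EN

open Vale.Agent.P022 Vale.Agent.P022K.UC Vale.Agent.P022K.UC.Hm
open Vale.Agent.P022.H567.Tw (cf)
open Vale.Agent.P022D.G (Wd sg PS)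

/-- **GAL2s**, the text of the library -/
def GAL : Prop := ∀ (N : ℕ) [NeZero N], Odd N → ∀ K : Finset ℕ, (∀ i ∈ K, 1 ≤ i) →
  ∀ (B : Type) [CommRing B] (s : ℕ), (2 : B) ^ s = 0 → ∀ β : Wd N →+* B,
  (∀ Q, (∀ i ∈ K, sg N i Q = 0) → β Q = 0) → ∃ t d, PS N β t d

/-- the lattice of weight `4 a + 4` -/
def Lt (D u : ℤ⟦X⟧) (a : ℕ) : Submodule ℤ ℤ⟦X⟧ :=
  Submodule.span ℤ {x | ∃ i, i ≤ a + 1 ∧ ¬ 3 ∣ i ∧ x = u ^ (a + 1 - i) * D ^ i}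

/-- the series `D = η (3 z) ^ 8` and `u = E₄ (3 z)` -/
structure Eta (D u : ℤ⟦X⟧) : Prop where
  sD : map (Int.castRingHom ℂ) D ∈ SM (Gamma0 9) 2
  su : map (Int.castRingHom ℂ) u ∈ SM (Gamma0 9) 2
  D1 : coeff 1 D = 1
  D3 : ∀ k, k % 3 ≠ 1 → coeff k D = 0
  D2 : ∀ k, k % 4 ≠ 1 → 2 ∣ coeff k D
  u1 : ∃ w, u = 1 + (16 : ℤ) • (X * w)
  u3 : ∀ k, ¬ 3 ∣ k → coeff k u = 0
  gr : ∃ A : ℕ, ∀ k, |coeff k D| ≤ (k + 2) ^ A ∧ |coeff k u| ≤ (k + 2) ^ A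
  stab : ∀ a l : ℕ, l.Prime → l ≠ 2 → l ≠ 3 → ∀ x ∈ Lt D u a,
    Hat2.Tl l ((l : ℤ) ^ (4 * a + 3)) x ∈ Lt D u a

/-- **ETA** (with STAB) -/
def ETA : Prop := ∃ D u, Eta D u

/-- a family of integral forms of level nine and weight `4 a + 4`, with leading exponents `o` and
Hecke matrices `n` -/
structure Fa (C a : ℕ) {d : ℕ} (g : Fin d → ℤ⟦X⟧) (o : Fin d → ℕ)
    (n : ℕ → Matrix (Fin d) (Fin d) ℤ) : Prop where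
  sm : ∀ i, map (Int.castRingHom ℂ) (g i) ∈ SM (Gamma0 9) (2 * a + 1 + 1)
  inj : Function.Injective o
  lead : ∀ i, coeff (o i) (g i) ≠ 0 ∧ ∀ k < o i, coeff k (g i) = 0
  big : ∀ k ≤ a + 1, k.Coprime 6 → ∃ i, o i = k
  le : d ≤ a + 1
  gr : ∀ i k, |coeff k (g i)| ≤ (k + 2) ^ (C * (a + 1))
  tl : ∀ l : ℕ, l.Prime → l ≠ 2 → l ≠ 3 → ∀ j,
    Hat2.Tl l ((l : ℤ) ^ (4 * a + 3)) (g j) = ∑ i, n l i j • g i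
  four : ∀ l : ℕ, l.Prime → l ≠ 2 → l % 3 = 2 → ∀ i j, 4 ∣ n l i j
  two : ∀ l : ℕ, l.Prime → l ≠ 3 → l % 4 = 3 → ∀ i j, 2 ∣ n l i j

/-- **MAT**: `g i = 4 ^ i • u ^ (a + 1 - i) * D ^ i` -/
def MAT : Prop := ∃ C, ∀ a, ∃ (d : ℕ) (g : Fin d → ℤ⟦X⟧) (o : Fin d → ℕ)
  (n : ℕ → Matrix (Fin d) (Fin d) ℤ), Fa C a g o n

/-- **HADI**: a non zero minor with columns prime to six -/
def HADI : Prop := ∀ C, ∃ C', ∀ (A : ℕ) (d : ℕ → ℕ) (g : ∀ a, Fin (d a) → ℤ⟦X⟧)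
  (o : ∀ a, Fin (d a) → ℕ) (n : ∀ a, ℕ → Matrix (Fin (d a)) (Fin (d a)) ℤ),
  (∀ a, Fa C a (g a) (o a) (n a)) → ∃ (r : ℕ) (e : Fin r → Σ a, Fin (d a)) (ν : Fin r → ℕ)
    (E : Matrix (Fin r) (Fin r) ℤ), (∀ i, (e i).1 ≤ A) ∧ (∀ k, (ν k).Coprime 6) ∧
    (∀ i k, E i k = (ν k : ℤ) ^ (2 * (A - (e i).1)) * coeff (ν k) (g (e i).1 (e i).2)) ∧
    (A + 1) ^ 2 ≤ C' * r ∧ E.det ≠ 0 ∧ |E.det| ≤ (A + 2) ^ (C' * r * (A + 1))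

/-- **BRG**: words and matrices -/
def BRG : Prop := (∀ k : ℕ, ∃ P : FreeAlgebra ℤ (PA 18), ∀ m f, Tv f →
    cf (wd 18 m P f) 1 = nc 18 m k f) ∧
  ∀ (C a d : ℕ) (g : Fin d → ℤ⟦X⟧) (o : Fin d → ℕ) (n : ℕ → Matrix (Fin d) (Fin d) ℤ),
  Fa C a g o n → (∀ l l' : PA 9, Commute (n l.1) (n l'.1)) ∧
    (∀ Q : Wd 9, sg 9 (4 * a + 3) Q = 0 → FreeAlgebra.lift ℤ (Sum.elim (fun l : PA 9 => n l.1)
      fun l : PA 9 => (l.1 : Matrix (Fin d) (Fin d) ℤ) ^ (4 * a + 3)) Q = 0) ∧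
    ∀ μ : FreeAlgebra ℤ (PA 18) →+* Matrix (Fin d) (Fin d) ℤ_[2],
      (∀ l, (l.1 : ℤ_[2]) ^ (2 * a + 1) • μ (FreeAlgebra.ι ℤ l) = (n l.1).map (↑)) → ∀ P,
      ((∀ f, Tv f → wd 18 (2 * a + 1) P f = 0) → μ P = 0) ∧ ∀ k : ℕ, k.Coprime 6 →
        (∀ f, Tv f → cf (wd 18 (2 * a + 1) P f) 1 = nc 18 (2 * a + 1) k f) → ∀ j,
        (k : ℤ_[2]) ^ (2 * a + 1) * ∑ i, μ P i j * (coeff 1 (g i) : ℤ) = (coeff k (g j) : ℤ)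

/-- the value of `p + q z` -/
def ev {A : Type*} [CommRing A] (x y z : A) (p q : MvPolynomial (Fin 2) ℤ) : A :=
  MvPolynomial.aeval ![x, y] p + MvPolynomial.aeval ![x, y] q * z

/-- an algebraic model of the weights at most `4 A + 4` and of the point -/
def Mo (N : ℕ) [NeZero N] {L : Type} [NormedField L] (lam : ℕ → L) (x₀ y₀ z₀ : L) (C A : ℕ) :
    Prop :=
  ∃ (R : Type) (_ : CommRing R) (_ : Algebra ℤ_[2] R) (x y z : R) (I : ℕ → Ideal R) (r : ℕ)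
    (φ : R →ₗ[ℤ_[2]] (Fin r → ℤ_[2])) (E : Matrix (Fin r) (Fin r) ℤ),
    3 * x ^ 2 + y ^ 2 + z ^ 2 + 12 = 0 ∧
    (∀ h, 2 ^ h ∈ I h ∧ x ^ (2 * h) ∈ I h ∧ y ^ (2 * h) ∈ I h ∧ ∀ a ∈ I h, ∀ i, 2 ^ h ∣ φ a i) ∧
    (A + 1) ^ 2 ≤ C * r ∧ E.det ≠ 0 ∧ |E.det| ≤ (A + 2) ^ (C * r * (A + 1)) ∧
    (∀ k h, ∃ p q, ∀ i, 2 ^ h ∣ (E i k : ℤ_[2]) - φ (ev x y z p q) i) ∧
    ∀ P : FreeAlgebra ℤ (PA N), (∀ m ≤ 2 * A + 1, ∀ f, Tv f → wd N m P f = 0) → ∀ h, ∃ p q,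
      ev x y z p q ∈ I h ∧
      ‖FreeAlgebra.lift ℤ (fun l : PA N => lam l.1) P - ev x₀ y₀ z₀ p q‖ ≤ ‖(2 : L)‖ ^ h

/-- **CORE**: the count -/
def CORE : Prop := ∀ (N : ℕ) [NeZero N] (L : Type) [NormedField L] [IsUltrametricDist L]
  (j : ℤ_[2] →+* L) (lam : ℕ → L) (x₀ y₀ z₀ : L) (C : ℕ), (∀ a, ‖j a‖ ≤ 1) → (2 : L) ≠ 0 →
  ‖(2 : L)‖ < 1 → ‖x₀‖ < 1 → ‖y₀‖ < 1 → ‖z₀‖ ≤ 1 → (∀ A, Mo N lam x₀ y₀ z₀ C A) → UCN N lam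

end Vale.Agent.P022K.EN

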